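import Vale.Agent.P352R.W.Def
import Vale.Agent.P352W.St
import Vale.Agent.P352W.Fk.Mec
import Vale.Agent.P352W.Ch.Defs
import Vale.Agent.P352X.ST.Syn

/-!
# P352R: the theory of all Wick monomials of the free field, words (helper49)
-/

set_option autoImplicit false
set_option linter.all false

open MeasureTheory Filter Topology
open scoped ComplexConjugate Classical

namespace Vale.Agent.P352R

open Vale.Agent.P352 Vale.Agent.P352.GF Vale.Agent.P352W.Cn Vale.Agent.P352W.Fk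
open Vale.Agent.P352.H246 (In)
open Vale.Agent.P352.H496 (cc)
open Vale.Agent.P352.H15 (IsSim)
open Vale.Agent.P352.ND (cur)
open Vale.Agent.P352W (PS)

noncomputable section

/-- the sum over all orderings of a function of `n` momenta -/
def sy : (n : ℕ) → ((Fin n → V) → ℂ) → Wf
  | 0, G => G default • vc
  | n + 1, G => dv fun p => sy n fun x => G (Fin.cons p x)

/-- monomials in the components of `n` momenta -/
def tm {n k : ℕ} (π : Fin k → Fin n) (μ : Fin k → Ix) (x : Fin n → V) : ℂ :=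
  ∏ j, Complex.I * x (π j) (μ j)

/-- the symbol of a local field -/
def kS (n : ℕ) (G : (Fin n → V) → ℂ) (f : Fn) : Wf := fun σ => sy n G σ * ft f σ.sum

/-- the symbol of a product of free fields -/
def tn {n : ℕ} (g : Fin n → Fn) : Wf := sy n fun x => ∏ i, ft (g i) (x i)

/-- polynomials in the components of `n` momenta -/
def pv {n : ℕ} (P : MvPolynomial (Fin n × Ix) ℂ) (x : Fin n → V) : ℂ :=
  MvPolynomial.eval (fun a => (x a.1 a.2 : ℂ)) P

/-- the wave functions made from the vacuum by the fields -/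
inductive Wd : Wf → Prop
  | vc : Wd vc
  | zero : Wd 0
  | add {ψ χ} : Wd ψ → Wd χ → Wd (ψ + χ)
  | smul (c : ℂ) {ψ} : Wd ψ → Wd (c • ψ)
  | ph {f ψ} : IsTest f → Wd ψ → Wd (ph (ft f) ψ)
  | qq (m n) {f ψ} : IsTest f → Wd ψ → Wd (qq (kT m n f) ψ)
  | wk {n k} (π : Fin k → Fin n) (μ : Fin k → Ix) {f ψ} : IsTest f → Wd ψ →
      Wd (W n (kS n (tm π μ) f) ψ)

/-- the domain, as a set -/
def IsD (v : Fo) : Prop := ∃ ψ, Wd ψ ∧ toL ψ = v

/-- the domain -/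
def D0 : Submodule ℂ Fo := Submodule.span ℂ {v | IsD v}

/-- the domain, as a type -/
abbrev D : Type := D0

/-- a wave function of a vector -/
def rep (v : D) : Wf := if h : IsD v.1 then h.choose else 0

/-- the vector of a word -/
def mk (ψ : Wf) : D := if h : Wd ψ then ⟨toL ψ, Submodule.subset_span ⟨ψ, h, rfl⟩⟩ else 0

/-- the operator on the domain given by an operator on wave functions -/
def op (A : Wf → Wf) (v : D) : D := mk (A (rep v))

/-- the vacuum vector -/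
def Ω : D := mk vc

/-- the free field -/
def Ph : Fld D := fun f => op (ph (ft f))

/-- the canonical stress tensor -/
def Tm (m n : Ix) : Fld D := fun f => op (qq (kT m n f))

/-- the Wick monomials -/
def Mo {n k : ℕ} (π : Fin k → Fin n) (μ : Fin k → Ix) : Fld D :=
  fun f => op (W n (kS n (tm π μ) f))

/-- the representation of the similitudes -/
def UU (s : ℝ) (L : Ix → V) (a : V) : D → D := op (gm s L a)

/-- the generators -/
def FP (B : Fld D) : Prop :=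
  B = Ph ∨ (∃ m n, B = Tm m n) ∨ ∃ (n k : ℕ) (π : Fin k → Fin n) (μ : Fin k → Ix), B = Mo π μ

section

variable {E : Type*} [NormedAddCommGroup E] [InnerProductSpace ℂ E]

/-- tensor fields with a scaling dimension -/
def Ten (U : ℝ → (Ix → V) → V → E → E) {k : ℕ} (d : ℝ) (Φ : (Fin k → Ix) → Fld E) : Prop :=
  ∀ μ s L a f v, 0 < s → IsLor L → IsTest f → Φ μ f (U s L a v) = ∑ ν : Fin k → Ix,
    ((s ^ (4 - d) * ∏ j, L (ν j) (μ j) : ℝ) : ℂ) • U s L a (Φ ν (fun x => f (sim s L a x)) v)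

/-- what the Fock space construction delivers -/
structure Fr (Ω : E) (φ : Fld E) (T : Ix → Ix → Fld E) (U : ℝ → (Ix → V) → V → E → E)
    (P : Fld E → Prop) : Prop where
  pφ : P φ
  pT : ∀ m n, P (T m n)
  norm_vac : ‖Ω‖ = 1
  gen : ∀ S : Submodule ℂ E, Ω ∈ S →
    (∀ B f v, P B → IsTest f → v ∈ S → B f v ∈ S) → ∀ v, v ∈ S
  lin : ∀ B f g c v, P B → IsTest f → IsTest g →
    B (fun x => f x + c * g x) v = B f v + (c : ℂ) • B g v
  herm : ∀ B f v w, P B → IsTest f → inner ℂ (B f v) w = inner ℂ v (B (bar f) w)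
  cont : ∀ B v, P B → Continuous fun g => B (ev g) v
  ps : ∀ B, P B → PS φ B
  loc0 : ∀ f g v, IsTest f → IsTest g → Sep f g → φ f (φ g v) = φ g (φ f v)
  fil : ∃ P : ℕ → E → Prop, (∀ v, ∃ n, P n v) ∧ ∀ g, IsTest g →
    (∀ n v, P n v → P (n + 1) (φ g v)) ∧
      ∃ C : ℝ, ∀ n v, P n v → ‖φ g v‖ ≤ C * √((n : ℝ) + 1) * ‖v‖
  U_inner : ∀ s L a v w, 0 < s → IsLor L → inner ℂ (U s L a v) (U s L a w) = inner ℂ v w
  U_vac : ∀ s L a, 0 < s → IsLor L → U s L a Ω = Ω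
  U_mul : ∀ s L a s' L' a' v, 0 < s → 0 < s' → IsLor L → IsLor L' →
    U s L a (U s' L' a' v) = U (s * s') (fun m => sim 1 L 0 (L' m)) (sim s L a a') v
  cov_phi : ∀ s L a f v, 0 < s → IsLor L → IsTest f → φ f (U s L a v) =
    ((s ^ 3 : ℝ) : ℂ) • U s L a (φ (fun x => f (sim s L a x)) v)
  cov_T : ∀ m n s L a f v, 0 < s → IsLor L → IsTest f → T m n f (U s L a v) =
    ∑ k, ∑ l, (L k m * L l n : ℂ) • U s L a (T k l (fun x => f (sim s L a x)) v)
  ten : ∀ B, P B → B = φ ∨ (∃ m n, B = T m n) ∨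
    ∃ (k : ℕ) (d : ℝ) (Φ : (Fin k → Ix) → Fld E) (μ : Fin k → Ix),
      B = Φ μ ∧ (∀ ν, P (Φ ν)) ∧ Ten U d Φ
  symm : ∀ m n f v, IsTest f → T m n f v = T n m f v
  conserved : ∀ n f v, IsTest f → ∑ m, T m n (pd m f) v = 0
  spec : ∀ v, ∃ ν : Measure V, IsFiniteMeasure ν ∧ (∀ᵐ p ∂ν, 0 ≤ p o ∧ 0 ≤ GF.mdot p p) ∧
    ν.real {p | p o = 0} ≤ ‖inner ℂ Ω v‖ ^ 2 ∧
    ∀ a, inner ℂ v (U 1 one a v) = ∫ p, Complex.exp (Complex.I * GF.mdot p a) ∂ν
  chg : ∀ F X (r : ℝ), IsCutoff F → IsSim 0 X → ∃ R₀ : ℝ, ∀ R ≥ R₀, ∀ g v,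
    In (Metric.ball 0 r) g → cur T X (F R) (φ g v) - φ g (cur T X (F R) v) =
      Complex.I • φ (fun x => ∑ n, (X x n : ℂ) * pd n g x) v
  nz : ∃ f, IsTest f ∧ tr T f Ω ≠ 0

end

/-! ### the rows of the classification -/

/-- space-like vectors -/
def SL : Set V := {y | GF.mdot y y < 0}

/-- integrable with the weight `N` -/
def Wi (N : ℕ) {n : ℕ} (F : (Fin n → V) → ℂ) : Prop :=
  Integrable (fun x => F x / ((wt (ms x) ^ N : ℝ) : ℂ)) (Mec.pw n)

/-- translation covariance -/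
def Tr (Λ : Sch →L[ℂ] Fo) : Prop := ∀ a g,
  Λ (P352X.ST.tsl a g) =ᵐ[Lam] fun c => P352W.Ch.ep (mu c).sum a * Λ g c

/-- weak locality -/
def Wl (Λ : Sch →L[ℂ] Fo) : Prop := ∀ (f f' : Sch) (n : ℕ) (g : Fin n → Fn),
  HasCompactSupport (ev f) → ev f' = bar (ev f) → (∀ i, In (cc (tsupport (ev f))) (g i)) →
    inner ℂ (toL (W n (st (tn g)) vc)) (Λ f) = inner ℂ (Λ f') (toL (W n (tn g) vc))

/-- row MUL: covariant distributions are multiples of the Fourier transform -/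
def MUL : Prop := ∀ Λ : Sch →L[ℂ] Fo, Tr Λ → ∃ (F : Cf → ℂ) (M : ℕ), Measurable F ∧
  Integrable (fun c => ‖F c‖ ^ 2 / rr (mu c).sum ^ M) Lam ∧
  ∀ g, Λ g =ᵐ[Lam] fun c => F c * ft (ev g) (mu c).sum

/-- row ONE: one variable -/
def ONE : Prop := ∀ N : ℕ, ∃ N' : ℕ, ∀ F F' : V → ℂ,
  Integrable (fun p => F p / ((rr p ^ N : ℝ) : ℂ)) Om →
  Integrable (fun p => F' p / ((rr p ^ N : ℝ) : ℂ)) Om →
  (∀ g, In SL g → ∫ p, ft g (-p) * F p ∂Om = ∫ p, ft g p * F' p ∂Om) →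
  ∃ P : MvPolynomial Ix ℂ, P.totalDegree ≤ N' ∧ ∀ᵐ p ∂Om,
    F p = MvPolynomial.eval (fun m => (p m : ℂ)) P ∧
      F' p = MvPolynomial.eval (fun m => -(p m : ℂ)) P

/-- row PAR: a polynomial vanishes on the forward cone iff it vanishes on the backward cone -/
def PAR : Prop := ∀ P : MvPolynomial Ix ℂ,
  (∀ᵐ p ∂Om, MvPolynomial.eval (fun m => (p m : ℂ)) P = 0) ↔
    ∀ᵐ p ∂Om, MvPolynomial.eval (fun m => -(p m : ℂ)) P = 0

/-- row DUA: reproducing formulas on both cones -/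
def DUA : Prop := ∀ N : ℕ, ∃ (J : ℕ) (u : Fin J → MvPolynomial Ix ℂ) (η η' : Fin J → V → ℂ),
  (∀ j, Hs (η j) ∧ Hs (η' j)) ∧ ∀ P : MvPolynomial Ix ℂ, P.totalDegree ≤ N →
    (∀ j, ∫ q, η j q * MvPolynomial.eval (fun m => (q m : ℂ)) P ∂Om =
      ∫ q, η' j q * MvPolynomial.eval (fun m => -(q m : ℂ)) P ∂Om) ∧
    ∀ᵐ p ∂Om, MvPolynomial.eval (fun m => (p m : ℂ)) P = ∑ j,
      (∫ q, η j q * MvPolynomial.eval (fun m => (q m : ℂ)) P ∂Om) *
        MvPolynomial.eval (fun m => (p m : ℂ)) (u j)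

/-- row TOT: totality -/
def TOT : Prop := ∀ (N n : ℕ) (R : (Fin n → V) → ℂ), Wi N R →
  (∀ g : Fin n → Fn, (∀ i, In SL (g i)) → ∫ x, (∏ i, ft (g i) (-x i)) * R x ∂Mec.pw n = 0) →
  ∀ᵐ x ∂Mec.pw n, R x = 0

/-- row MANY: all variables -/
def MANY : Prop := ∀ (N n : ℕ) (F F' : (Fin n → V) → ℂ), Wi N F → Wi N F' →
  (∀ g : Fin n → Fn, (∀ i, In SL (g i)) → ∫ x, (∏ i, ft (g i) (-x i)) * F x ∂Mec.pw n =
    ∫ x, (∏ i, ft (g i) (x i)) * F' x ∂Mec.pw n) →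
  ∃ P : MvPolynomial (Fin n × Ix) ℂ, ∀ᵐ x ∂Mec.pw n, F x = pv P x

/-- row FIN: only finitely many particles -/
def FIN : Prop := ∀ (M n : ℕ) (P : MvPolynomial (Fin n × Ix) ℂ), M < 2 * n →
  Integrable (fun x => ‖pv P x‖ ^ 2 / rr (ms x).sum ^ M) (Mec.pw n) →
  ∀ᵐ x ∂Mec.pw n, pv P x = 0

/-- row CORE: the classification on Fock space -/
def CORE : Prop := ∀ Λ : Sch →L[ℂ] Fo, Tr Λ → Wl Λ →
  ∃ (M : ℕ) (P : ∀ n, MvPolynomial (Fin n × Ix) ℂ), ∀ g χ, Nice χ →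
    inner ℂ (toL χ) (Λ g) = ∑ n ∈ Finset.range M, ip χ (W n (kS n (pv (P n)) (ev g)) vc)

/-- row NO: normal ordered products are polynomials in the free field -/
def NO : Prop := ∀ (Q : Theory D) (O : Set V) (n : ℕ) (g : Fin n → Fn), Q.fld Ph →
  (∀ i, In O (g i)) → ∃ X X', H246.Al Q O X X' ∧ (X Ω).1 = toL (W n (tn g) vc) ∧
    (X' Ω).1 = toL (W n (st (tn g)) vc)

end

end Vale.Agent.P352R
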