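import Vale.Agent.P352R.Pub
import Vale.Agent.P352H.Rec

/-!
# P352R: the republished definitions agree with the old ones
-/

set_option linter.all false

namespace Vale.Agent.P352R.Br

open Vale.Agent.P352 Vale.Agent.P352.GF
open UniformSpace (Completion)

variable {D : Type*} [NormedAddCommGroup D] [InnerProductSpace ℂ D]
variable {D' : Type*} [NormedAddCommGroup D'] [InnerProductSpace ℂ D']

/-- new spins to old spins -/
def old (k : P.Rp) : P352X.Rp := ⟨k.n, k.ρ, k.S, k.id, k.mul, k.der⟩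

/-- old spins to new spins -/
def new (k : P352X.Rp) : P.Rp := ⟨k.n, k.ρ, k.S, k.id, k.mul, k.der⟩

theorem al {Q : Theory D} {W : Set V} {X X' : D → D} : P.Al Q W X X' ↔ H246.Al Q W X X' := by
  constructor <;> intro h
  · induction h with
    | one => exact .one
    | add X X' Y Y' _ _ a b => exact .add _ _ _ _ a b
    | smul c X X' _ a => exact .smul c _ _ a
    | fld A B g X X' a b c d _ e => exact .fld A B g _ _ a b c d e
  · induction h with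
    | one => exact .one
    | add X X' Y Y' _ _ a b => exact .add _ _ _ _ a b
    | smul c X X' _ a => exact .smul c _ _ a
    | fld A B g X X' a b c d _ e => exact .fld A B g _ _ a b c d e

theorem stress0 {Q : Theory D} {T : Ix → Ix → Fld D} : P.Stress0 Q T ↔ P352X.Stress0 Q T :=
  ⟨fun h => ⟨h.1, h.2, h.3, h.4, h.5, h.6⟩, fun h => ⟨h.1, h.2, h.3, h.4, h.5, h.6⟩⟩

theorem pch {Q : Theory D} {T : Ix → Ix → Fld D} {A : (V → V) → D → D} :
    P.PCh Q T A ↔ ND.PCh Q T A := Iff.rfl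

theorem tfg {Q : Theory D} : P.TfGen Q ↔ BW.TfGen Q := Iff.rfl

theorem fsl {Q : Theory D} : P.FSL Q ↔ P352X.FSL Q := Iff.rfl

theorem nolog {Q : Theory D} {T : Ix → Ix → Fld D} : P.NoLog Q T ↔ P352X.NoLog Q T := Iff.rfl

theorem uvac {Q : Theory D} : P.UVac Q ↔ P352X.L.UVac Q := Iff.rfl

theorem gnr {Q : Theory D} {A : (V → V) → D → D} : P.Gnr Q A ↔ P352L.Gnr Q A := Iff.rfl

theorem mfa {Q : Theory D} : P.MfA Q ↔ P352X.MfAll Q := by
  constructor <;> intro h A hA <;> obtain ⟨n, B, a, b⟩ := h A hA <;>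
    refine ⟨n, B, fun i => ?_, b⟩ <;> obtain ⟨k, Φ, c, d, e⟩ := a i
  · exact ⟨old k, Φ, c, d, e⟩
  · exact ⟨new k, Φ, c, d, e⟩

theorem rep {Q : Theory D} {A : (V → V) → D → D} : P.Rep Q A ↔ H15.Rep Q A :=
  ⟨fun h => ⟨h.1, h.2, h.3⟩, fun h => ⟨h.1, h.2, h.3⟩⟩

theorem lnm {Q : Theory D} {A : (V → V) → D → D} {N : Set V → VonNeumannAlgebra (Completion D)} :
    P.LNm Q A N ↔ BW.LNm Q A N :=
  ⟨fun h => ⟨rep.1 h.1, h.2, h.3, h.4, h.5⟩, fun h => ⟨rep.2 h.1, h.2, h.3, h.4, h.5⟩⟩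

theorem enl {Q Q' : Theory D} : P.IsEnl Q Q' ↔ H15.IsEnl Q Q' :=
  ⟨fun h => ⟨h.1, h.2, h.3, h.4⟩, fun h => ⟨h.1, h.2, h.3, h.4⟩⟩

theorem wloc {Q : Theory D} {l : Fn → Completion D} : P.WeakLoc Q l ↔ N86.WeakLoc Q l :=
  ⟨fun h f X X' a b => h f X X' a (al.2 b), fun h f X X' a b => h f X X' a (al.1 b)⟩

theorem mult {Q : Theory D} {k : ℕ} {d : ℝ} {φ : (Fin k → Ix) → Fn → Completion D} :
    P.Mult Q k d φ ↔ P352X.L.Mult Q k d φ :=
  ⟨fun h => ⟨h.1, h.2, h.3⟩, fun h => ⟨h.1, h.2, h.3⟩⟩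

theorem frec {Q : Theory D} : P.Rec Q ↔ P352X.L.Rec Q :=
  ⟨fun h k d φ m w => h k d φ (mult.2 m) fun μ => wloc.2 (w μ),
    fun h k d φ m w => h k d φ (mult.1 m) fun μ => wloc.1 (w μ)⟩

theorem vir {Q : Theory D} {T : Ix → Ix → Fld D} {J : Ix → Fld D} :
    P.IsVirial Q T J ↔ H246.IsVirial Q T J :=
  ⟨fun h => ⟨h.1, h.2, h.3, h.4⟩, fun h => ⟨h.1, h.2, h.3, h.4⟩⟩

theorem impr {Q : Theory D} {T t : Ix → Ix → Fld D} : P.IsImpr Q T t ↔ H496.IsImpr Q T t :=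
  ⟨fun h => ⟨h.1, h.2, h.3, h.4, h.5, h.6, h.7, h.8, h.9, h.10⟩,
    fun h => ⟨h.1, h.2, h.3, h.4, h.5, h.6, h.7, h.8, h.9, h.10⟩⟩

theorem gr {Q : Theory D} {G : D → D} : P.Gr Q G ↔ P352X.Gr Q G :=
  ⟨fun h => ⟨h.1, h.2, h.3, h.4, h.5, h.6, h.7⟩, fun h => ⟨h.1, h.2, h.3, h.4, h.5, h.6, h.7⟩⟩

theorem sect {Q : Theory D} {Q' : Theory D'} {i : D →ₗᵢ[ℂ] D'} :
    P.Sect Q Q' i ↔ P352X.Sect Q Q' i :=
  ⟨fun h => ⟨h.1, h.2, h.3, h.4⟩, fun h => ⟨h.1, h.2, h.3, h.4⟩⟩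

theorem isLoc {Q : Theory D} {A B : Fn → D → Completion D} (h : SubConf.IsLoc Q A B) :
    P.IsLoc Q A B := ⟨h.1, h.2, h.3, h.4, h.5, h.6⟩

theorem isLocF {Q : Theory D} {A : Fld D} {R R' : Fn → D → Completion D}
    (h : H755.IsLocF Q A R R') : P.IsLocF Q A R R' := ⟨h.1, h.2, h.3, h.4, h.5, h.6⟩

theorem act {Q : Theory D} {t : Ix → Ix → Fld D} (h : H755.ConfAct Q t) : P.ConfAct Q t :=
  fun A B a b c => by
    obtain ⟨S, S', K, K', d, e, f⟩ := h A B a b c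
    exact ⟨S, S', K, K', fun m n => isLocF (d m n), fun m => isLocF (e m), f⟩

theorem prim {Q : Theory D} {G : D → D} {t : Ix → Ix → Fld D} {e : Bool} {k : P352X.Rp} {d : ℂ}
    {R R' : Fin k.n → Fn → D → Completion D} (h : P352X.PrimS Q G t e k d R R') :
    P.PrimS Q G t e (new k) d R R' :=
  ⟨fun a => (h.1 a).imp fun _ x => isLoc x, h.2, h.3, h.4⟩

theorem desc {Q : Theory D} {G : D → D} {t : Ix → Ix → Fld D} {e : Bool} {A : Fld D}
    (h : P352X.DescS Q G t e A) : P.DescS Q G t e A := by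
  obtain ⟨n, k, d, c, α, a, R, R', x, y⟩ := h
  exact ⟨n, fun i => new (k i), d, c, α, a, R, R', fun i => prim (x i), y⟩

theorem cfs {Q : Theory D} {G : D → D} {t : Ix → Ix → Fld D} (h : P352X.CFS Q G t) :
    P.CFS Q G t :=
  ⟨fun X Y Y' F a b c => h.1 X Y Y' F a (al.1 b) c, fun e k d Φ Φ' a b =>
    ⟨(h.2 e (old k) d Φ Φ' a b).1, fun x => desc ((h.2 e (old k) d Φ Φ' a b).2 x)⟩⟩

theorem cinv {Q : Theory D} {G : D → D} {T : Ix → Ix → Fld D} {J : Ix → Fld D}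
    (h : P352X.L.CInv Q G T J) : P.CInv Q G T J :=
  ⟨vir.2 h.1, impr.2 h.2, act h.3, cfs h.4,
    fun a e k Φ x b c => desc (h.5 a e (old k) Φ x b c)⟩

open P in
/-- **theories with field reconstruction**, in the republished definitions -/
theorem finalP (Q : Theory D) (T : Ix → Ix → Fld D) (hT : Stress0 Q T) (A : (V → V) → D → D)
    (hA : PCh Q T A) (hG : TfGen Q ∨ MfA Q) (hF : FSL Q)
    (N : Set V → VonNeumannAlgebra (Completion D)) (hN : LNm Q A N) (hU : UVac Q) (hR : Rec Q) :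
    NoLog Q T ∧ ∃ S J, Q.IsStress S ∧ IsImpr Q T (improveJ S J) ∧
      (∀ Q' : Theory D, IsEnl Q Q' → CInv Q' id S J) ∧
      ∀ (Q' : Theory D') i G T' A', Sect Q Q' i → Gr Q' G → Stress0 Q' T' → Gnr Q' A' →
        PCh Q' T' A' → FSL Q' → (∀ m n, Xt i (T m n) (T' m n)) → NoLog Q' T' ∧
          ∃ S' J', Q'.IsStress S' ∧ (∀ m n, Xt i (S m n) (S' m n)) ∧ (∀ m, Xt i (J m) (J' m)) ∧
            IsImpr Q' T' (improveJ S' J') ∧ CInv Q' G S' J' := by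
  obtain ⟨a, S, J, b, c, d, e⟩ := P352H.finalR (D' := D') Q T (stress0.1 hT) A hA
    (hG.imp_right mfa.1) hF N (lnm.1 hN) hU (frec.1 hR)
  refine ⟨a, S, J, b, impr.2 c, fun Q' h => cinv (d Q' (enl.1 h)),
    fun Q' i G T' A' h1 h2 h3 h4 h5 h6 h7 => ?_⟩
  obtain ⟨a', S', J', b', c', d', e', f'⟩ :=
    e Q' i G T' A' (sect.1 h1) (gr.1 h2) (stress0.1 h3) h4 h5 h6 h7
  exact ⟨a', S', J', b', c', d', impr.2 e', cinv f'⟩

end Vale.Agent.P352R.Br
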