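import Vale.Agent.P352R.Pub2
import Vale.Agent.P352R.Br
import Vale.Agent.P352H.Fin
import Vale.Agent.P352H.Rep

/-!
# P352R: the theorem for local nets, in the republished definitions
-/

set_option linter.all false

namespace Vale.Agent.P352R.Br

open Vale.Agent.P352 Vale.Agent.P352.GF
open UniformSpace (Completion)

variable {D : Type*} [NormedAddCommGroup D] [InnerProductSpace ℂ D]

theorem ext0 {Q : Theory D} {D' : Submodule ℂ (Completion D)} {Q' : Theory D'}
    {e : Fld D → Fld D'} (h : P352NA.Ext0 Q Q' e) : P.Ext0 Q Q' e :=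
  ⟨h.1, h.2, h.3, h.4, h.5, h.6⟩

open P in
/-- **theories with a local net**, in the republished definitions -/
theorem finalF (Q : Theory D) (T : Ix → Ix → Fld D) (hT : Stress0 Q T) (A : (V → V) → D → D)
    (hA : PCh Q T A) (hM : MfA Q) (hF : FSL Q)
    (N : Set V → VonNeumannAlgebra (Completion D)) (hN : LNm Q A N) (hU : UVac Q) :
    NoLog Q T ∧ ∃ T', Q.IsStress T' ∧ PCh Q T' A ∧
    ∃ (D' : Submodule ℂ (Completion D)) (Q' : Theory D') (e : Fld D → Fld D') (L : Fld D'),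
      Ext0 Q Q' e ∧ AfW N Q' (↑) ∧ Q'.IsStress (fun m n => e (T' m n)) ∧ Q'.IsScalar L 2 ∧
      (∀ f v, IsTest f → tr (fun m n => e (T' m n)) f v = (3 : ℂ) • L (box f) v) ∧
      ∀ Q'' : Theory D', IsEnl Q' Q'' → IsImpr Q'' (fun m n => e (T' m n))
        (improve (fun m n => e (T' m n)) L) ∧ ConfAct Q'' (improve (fun m n => e (T' m n)) L) ∧
        CFS Q'' id (improve (fun m n => e (T' m n)) L) ∧
        ∀ B, Q'.fld B → ∃ (n : ℕ) (C : Fin n → Fld D'),
          (∀ i, DescS Q'' id (improve (fun m n => e (T' m n)) L) false (C i)) ∧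
          ∀ f v, IsTest f → B f v = ∑ i, C i f v := by
  obtain ⟨a, T', b, c, D', Q', e, L, d, f, g, h, i, j⟩ :=
    P352H.final Q T (stress0.1 hT) A hA (mfa.1 hM) hF N (lnm.1 hN) hU
  refine ⟨a, T', b, c, D', Q', e, L, ext0 d, f, g, h, i, fun Q'' n => ?_⟩
  obtain ⟨k, l, m, p⟩ := j Q'' (enl.1 n)
  refine ⟨impr.2 k, act l, cfs m, fun B hB => ?_⟩
  obtain ⟨n, C, x, y⟩ := p B hB
  exact ⟨n, C, fun i => desc (x i), y⟩

open P in
theorem repF (Q : Theory D)
    (mul : ∀ s L a s' L' a' v, 0 < s → 0 < s' → IsLor L → IsLor L' →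
      Q.U s L a (Q.U s' L' a' v) = Q.U (s * s') (fun m => sim 1 L 0 (L' m)) (sim s L a a') v)
    (gen : ∀ w, Cyc Q w) (hM : MfA Q) (hF : FSL Q) : ∃ A, Rep Q A :=
  (P352H.rep_gen Q mul gen (mfa.1 hM) hF).imp fun _ h => rep.2 h

end Vale.Agent.P352R.Br
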