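import Vale.Agent.P352R.Pub3
import Vale.Agent.P352R.Br
import Vale.Agent.P352L.Gd.Main
import Vale.Agent.P352L.Final
import Vale.Agent.P352X.EH.W

/-!
# P352R: the graded theorem in the republished definitions (helper85)
-/

set_option autoImplicit false
set_option linter.all false

namespace Vale.Agent.P352R.Br

open Vale.Agent.P352 Vale.Agent.P352.GF
open UniformSpace (Completion)

variable {D : Type*} [NormedAddCommGroup D] [InnerProductSpace ℂ D]

theorem en_eq (Q : Theory D) : ∀ k v, G.en Q k v = H246.en Q k v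
  | 0, _ => rfl
  | k + 1, v => by simp only [G.en, H246.en, en_eq Q k]; rfl

theorem ebd {Q : Theory D} : G.EBd Q ↔ P352X.EBd Q := by
  simp only [G.EBd, en_eq]; rfl

theorem lng {Q : Theory D} {g : D → D} {A : (V → V) → D → D}
    {Γ : Completion D →L[ℂ] Completion D} {N : Set V → VonNeumannAlgebra (Completion D)} :
    G.LNg Q g A Γ N ↔ P352X.LNg Q g A Γ N :=
  ⟨fun h => ⟨gr.1 h.1, h.2, h.3, h.4, h.5, h.6, h.7, h.8, h.9, h.10⟩,
    fun h => ⟨gr.2 h.1, h.2, h.3, h.4, h.5, h.6, h.7, h.8, h.9, h.10⟩⟩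

theorem extg {Q : Theory D} {Γ : Completion D →L[ℂ] Completion D}
    {D' : Submodule ℂ (Completion D)} {Q' : Theory D'} {G' : D' → D'} {e : Fld D → Fld D'}
    (h : P352X.ExtG Q Γ Q' G' e) : G.ExtG Q Γ Q' G' e :=
  ⟨gr.2 h.1, h.2, h.3, h.4, h.5, h.6, h.7, h.8, h.9⟩

open P G in
/-- **graded theories**, in the republished definitions -/
theorem finalG (Q : Theory D) (Gd : D → D) (T : Ix → Ix → Fld D) (hT : Stress0 Q T)
    (A : (V → V) → D → D) (hA : PCh Q T A) (hG : MfA Q) (hF : FSL Q)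
    (Γ : Completion D →L[ℂ] Completion D) (N : Set V → VonNeumannAlgebra (Completion D))
    (hN : LNg Q Gd A Γ N) (hU : UVac Q) (hE : EBd Q) : NoLog Q T ∧
    ∃ T', Q.IsStress T' ∧ PCh Q T' A ∧
    ∃ (D' : Submodule ℂ (Completion D)) (Q' : Theory D') (G' : D' → D') (e : Fld D → Fld D')
      (L : Fld D'), ExtG Q Γ Q' G' e ∧ AfW N Q' (↑) ∧ Q'.IsStress (fun m n => e (T' m n)) ∧
      Q'.IsScalar L 2 ∧
      (∀ f v, IsTest f → tr (fun m n => e (T' m n)) f v = (3 : ℂ) • L (box f) v) ∧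
      ∀ R : Theory D', IsEnl Q' R → IsImpr R (fun m n => e (T' m n))
        (improve (fun m n => e (T' m n)) L) ∧ ConfAct R (improve (fun m n => e (T' m n)) L) ∧
        (Gr R G' → CFS R G' (improve (fun m n => e (T' m n)) L) ∧
        ∀ B, Q'.fld B → ∃ (n : ℕ) (p : Fin n → Bool) (C : Fin n → Fld D'),
          (∀ i, DescS R G' (improve (fun m n => e (T' m n)) L) (p i) (C i)) ∧
          ∀ f v, IsTest f → B f v = ∑ i, C i f v) := by
  have h := P352L.Gd.nologG (fun E => P352L.last E) Q Gd T (stress0.1 hT) A hA hF Γ N (lng.1 hN) hU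
    (ebd.1 hE)
  obtain ⟨T', a, b, D', Q', G', e, L, c, d, k1, k2, k3, k⟩ := P352X.EG.H.final Q Gd T (stress0.1 hT)
    A hA (mfa.1 hG) hF h Γ N (lng.1 hN) hU (ebd.1 hE)
  refine ⟨h, T', a, b, D', Q', G', e, L, extg c, d, k1, k2, k3, fun R r => ?_⟩
  obtain ⟨x, y, z⟩ := k R (enl.1 r)
  refine ⟨impr.2 x, act y, fun g => ⟨cfs (z (gr.1 g)).1, fun B hB => ?_⟩⟩
  obtain ⟨n, p, C, u, w⟩ := (z (gr.1 g)).2 B hB
  exact ⟨n, p, C, fun i => desc (u i), w⟩

end Vale.Agent.P352R.Br
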