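import Vale.Agent.P352.GFDefs
import Mathlib.Analysis.InnerProductSpace.Completion
import Mathlib.Analysis.VonNeumannAlgebra.Basic

open Filter Topology

namespace Vale.Agent.P352R.P

open P352.GF
open UniformSpace (Completion)

noncomputable section

/-- Test functions with compact support in the region `W`. -/
def In (W : Set V) (f : Fn) : Prop := IsTest f ∧ HasCompactSupport f ∧ tsupport f ⊆ W

/-- Future directed null vectors. -/
def IsNull (a : V) : Prop := mdot a a = 0 ∧ 0 < a o

/-- The wedge with edge through `v` that is bounded by the null hyperplanes through `v`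
orthogonal to the null vectors `a` and `b`. -/
def Wdg (a b v : V) : Set V := {x | mdot a (x - v) < 0 ∧ 0 < mdot b (x - v)}

/-- The points that are spacelike to all points of `K`. -/
def cc (K : Set V) : Set V := {y | ∀ x ∈ K, mdot (x - y) (x - y) < 0}

/-- `X` is the velocity field `z ↦ c + r z + w z` of a curve of similitudes, with rate of
expansion `r` and an infinitesimal Lorentz transformation `w`. -/
def IsSim (r : ℝ) (X : V → V) : Prop := ∃ (c : V) (w : Ix → V),
  (∀ m n, eta n * w m n = -(eta m * w n m)) ∧ ∀ z n, X z n = c n + r * z n + ∑ m, z m * w m n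

/-- The conformal Killing vector fields
`X(x) = a + r x + w x + 2 (b, x) x - (x, x) b` with an infinitesimal Lorentz transformation `w`. -/
def IsKil (X : Ix → V → ℝ) : Prop := ∃ (a b : V) (r : ℝ) (w : Ix → V),
  (∀ m n, eta n * w m n = -(eta m * w n m)) ∧ ∀ n x,
    X n x = a n + r * x n + ∑ m, x m * w m n + 2 * mdot b x * x n - mdot x x * b n

/-- The function `x ↦ x^l g(x)`. -/
def xg (l : Ix) (g : Fn) : Fn := fun x => (x l : ℂ) * g x

/-- The divergence of a vector field. -/
def dvg (X : Ix → V → ℝ) : Fn := fun x => ∑ n, pd n (fun y => (X n y : ℂ)) x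

/-- **Spins.** A finite dimensional representation `ρ`, up to sign, of the Lorentz group (tensors
and spinors), with the spin matrices `S`. -/
structure Rp where
  n : ℕ
  ρ : (Ix → V) → Matrix (Fin n) (Fin n) ℂ
  S : Ix → Ix → Matrix (Fin n) (Fin n) ℂ
  id : ρ one = 1
  mul : ∀ L L', IsLor L → IsLor L' → ρ (fun m => sim 1 L 0 (L' m)) = ρ L' * ρ L ∨
    ρ (fun m => sim 1 L 0 (L' m)) = -(ρ L' * ρ L)
  der : ∀ (L : ℝ → Ix → V) (w : Ix → V) a b, L 0 = one → (∀ e, IsLor (L e)) →
    (∀ m n, HasDerivAt (fun e => L e m n) (w m n) 0) →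
    HasDerivAt (fun e => ρ (L e) a b) (∑ m, ∑ n, w m n * S m n a b) 0

variable {D : Type*} [NormedAddCommGroup D] [InnerProductSpace ℂ D]

/-- A stress tensor with contravariant components `T m n`. Its behaviour under dilations is not
prescribed. -/
structure Stress0 (Q : Theory D) (T : Ix → Ix → Fld D) : Prop where
  bose : ∀ m n, Q.bose (T m n)
  symm : ∀ m n f v, IsTest f → T m n f v = T n m f v
  herm : ∀ m n f v w, IsTest f → inner ℂ (T m n f v) w = inner ℂ v (T m n (bar f) w)
  cov : ∀ m n L a f v, IsLor L → IsTest f → T m n f (Q.U 1 L a v) =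
    ∑ k, ∑ l, (L k m * L l n : ℂ) • Q.U 1 L a (T k l (fun x => f (sim 1 L a x)) v)
  conserved : ∀ n f v, IsTest f → ∑ m, T m n (pd m f) v = 0
  charge : ∀ F n A f v w, IsCutoff F → Q.fld A → IsTest f → HasCompactSupport f →
    Tendsto (fun R => inner ℂ w (T o n (F R) (A f v) - A f (T o n (F R) v))) atTop
      (𝓝 (inner ℂ w ((Complex.I * eta n) • A (pd n f) v)))

/-- The field `B` has the scaling dimension `d`. -/
def Dim (Q : Theory D) (d : ℂ) (B : Fld D) : Prop := ∀ (s : ℝ) f v, 0 < s → IsTest f →
  B f (Q.U s one 0 v) = (s : ℂ) ^ (4 - d) • Q.U s one 0 (B (fun x => f (sim s one 0 x)) v)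

/-- **Scaling laws with logarithms.** The dilates of the field `A` are the sums over `(d, j)` in `F`
of `s ^ (4 - d) (log s) ^ j` times fields `B (d, j)`. -/
def Scl (Q : Theory D) (A : Fld D) (F : Finset (ℂ × ℕ)) (B : ℂ × ℕ → Fld D) : Prop :=
  (∀ p, Q.fld (B p) ∧ (Q.bose A → Q.bose (B p))) ∧ ∀ (s : ℝ) f v, 0 < s → IsTest f →
    A f (Q.U s one 0 v) = ∑ p ∈ F, ((s : ℂ) ^ (4 - p.1) * (Real.log s : ℂ) ^ p.2) •
      Q.U s one 0 (B p (fun x => f (sim s one 0 x)) v)

/-- Every field has a finite scaling law: the fields are sums of generalized eigenvectors of the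
dilations, Jordan blocks are allowed. -/
def FSL (Q : Theory D) : Prop := ∀ A, Q.fld A → ∃ F B, Scl Q A F B

/-- In dimension four the scaling law of `T` has no logarithms. -/
def NoLog (Q : Theory D) (T : Ix → Ix → Fld D) : Prop :=
  ∀ m n, ∃ F B, Scl Q (T m n) F B ∧ ∀ j, ((4 : ℂ), j) ∈ F ↔ j = 0

/-- The current `X^n T_{0n}` of `T` and the vector field `X`, smeared with `g`. -/
def cur (T : Ix → Ix → Fld D) (X : V → V) (g : Fn) (u : D) : D :=
  ∑ n, T o n (fun x => (eta n : ℂ) * X x n * g x) u

/-- The charges of the stress tensor `T` on space-like hyperplanes generate the Poincaré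
transformations: the regularized charges of the currents `X^n T_{mn}`, `X` an infinitesimal
Poincaré transformation, have the same commutators with the fields as the generators `A X`. -/
def PCh (Q : Theory D) (T : Ix → Ix → Fld D) (A : (V → V) → D → D) : Prop :=
  ∀ F X (B : Fld D) f v w, IsCutoff F → IsSim 0 X → Q.fld B → IsTest f → HasCompactSupport f →
    Tendsto (fun R => inner ℂ w (cur T X (F R) (B f v) - B f (cur T X (F R) v))) atTop
      (𝓝 (inner ℂ w (A X (B f v) - B f (A X v))))

/-- The fields `Φ μ` are the contravariant components of a tensor field of rank `k`: covariance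
under the Lorentz group. (The fields of a theory are covariant under translations.) -/
def IsTf (Q : Theory D) (k : ℕ) (Φ : (Fin k → Ix) → Fld D) : Prop :=
  (∀ μ, Q.fld (Φ μ)) ∧ ∀ μ L f v, IsLor L → IsTest f →
    Φ μ f (Q.U 1 L 0 v) = ∑ ν : Fin k → Ix, ((∏ i, L (ν i) (μ i) : ℝ) : ℂ) •
      Q.U 1 L 0 (Φ ν (fun x => f (sim 1 L 0 x)) v)

/-- The vacuum is cyclic for the tensor fields. -/
def TfGen (Q : Theory D) : Prop := ∀ S : Submodule ℂ D, Q.vac ∈ S →
  (∀ k Φ μ f v, IsTf Q k Φ → IsTest f → v ∈ S → Φ μ f v ∈ S) → Dense (S : Set D)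

/-- A multiplet of fields with spin `k`. -/
def IsMl (Q : Theory D) (k : Rp) (Φ : Fin k.n → Fld D) : Prop :=
  ∀ a L f v, IsLor L → IsTest f → Φ a f (Q.U 1 L 0 v) =
    ∑ b, k.ρ L b a • Q.U 1 L 0 (Φ b (fun x => f (sim 1 L 0 x)) v)

/-- Every field is a finite sum of components of multiplets of fields with a spin. -/
def MfA (Q : Theory D) : Prop :=
  ∀ A, Q.fld A → ∃ (n : ℕ) (B : Fin n → Fld D),
    (∀ i, ∃ k Φ a, ((∀ b, Q.fld (Φ b)) ∧ IsMl Q k Φ) ∧ B i = Φ a) ∧
      ∀ f v, IsTest f → A f v = ∑ i, B i f v

/-- `A X` is the generator of the similitudes with velocity field `X`, on the domain `D`. -/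
def Gnr (Q : Theory D) (A : (V → V) → D → D) : Prop :=
  ∀ (s : ℝ → ℝ) (L : ℝ → Ix → V) (a : ℝ → V) X v, s 0 = 1 → L 0 = one → a 0 = 0 →
    (∀ e, 0 < s e ∧ IsLor (L e)) →
    (∀ n x, HasDerivAt (fun e => sim (s e) (L e) (a e) x n) (X x n) 0) →
    HasDerivAt (fun e => Q.U (s e) (L e) (a e) v) (Complex.I • A X v) 0

/-- `U` is a representation of the group of similitudes, and the vectors of `D` are in the domain
of its generators: `A X` is the generator with velocity field `X`, a linear function of `X`. -/
structure Rep (Q : Theory D) (A : (V → V) → D → D) : Prop where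
  mul : ∀ s L a s' L' a' v, 0 < s → 0 < s' → IsLor L → IsLor L' →
    Q.U s L a (Q.U s' L' a' v) = Q.U (s * s') (fun m => sim 1 L 0 (L' m)) (sim s L a a') v
  add : ∀ r r' (c : ℝ) X X' v, IsSim r X → IsSim r' X' →
    A (fun z => X z + c • X' z) v = A X v + (c : ℂ) • A X' v
  der : Gnr Q A

/-- `Q'` has the same vacuum and the same representation of the similitudes as `Q`, and all fields
of `Q`. -/
structure IsEnl (Q Q' : Theory D) : Prop where
  vac : Q'.vac = Q.vac
  U : Q'.U = Q.U
  fld : ∀ A, Q.fld A → Q'.fld A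
  bose : ∀ A, Q.bose A → Q'.bose A

/-- The operator `X` on `D` is affiliated to the von Neumann algebra `M` on the completion of `D`:
it has an adjoint on `D`, and it commutes weakly with the commutant of `M`. -/
def Aff (M : VonNeumannAlgebra (Completion D)) (X : D → D) : Prop :=
  ∃ X' : D → D, (∀ v w, inner ℂ (X v) w = inner ℂ v (X' w)) ∧
    ∀ Y ∈ M.commutant, ∀ v w : D, inner ℂ ((X' w : D) : Completion D) (Y (v : Completion D)) =
      inner ℂ (w : Completion D) (Y ((X v : D) : Completion D))

/-- The representation of the similitudes on the completion of `D`. -/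
def Ue (Q : Theory D) (s : ℝ) (L : Ix → V) (x : V) : Completion D → Completion D :=
  Completion.map (Q.U s L x)

/-- The vacuum, as a vector of the completion of `D`. -/
def om (Q : Theory D) : Completion D := (Q.vac : Completion D)

/-- The vacuum is the only translation invariant vector. -/
def UVac (Q : Theory D) : Prop :=
  ∀ z, (∀ a, Ue Q 1 one a z = z) → ∃ c : ℂ, z = c • om Q

/-- **Local nets of von Neumann algebras.** The von Neumann algebras `𝒜 O`, `O` a region, on the
completion of `D`, are isotonic and covariant under the similitudes, the fields smeared in `O` are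
affiliated to `𝒜 O`, and the algebras of opposite wedges commute. -/
structure LNm (Q : Theory D) (A : (V → V) → D → D)
    (𝒜 : Set V → VonNeumannAlgebra (Completion D)) : Prop extends Rep Q A where
  fld : ∀ O B f, Q.fld B → In O f → Aff (𝒜 O) (B f)
  mono : ∀ O O', O ⊆ O' → ∀ X ∈ 𝒜 O, X ∈ 𝒜 O'
  cov : ∀ s L y O, ∀ X ∈ 𝒜 O, 0 < s → IsLor L →
    ∃ Y ∈ 𝒜 (sim s L y '' O), ∀ z, Y (Ue Q s L y z) = Ue Q s L y (X z)
  loc : ∀ a b X, IsNull a → IsNull b → mdot a b = 1 →
    X ∈ 𝒜 (Wdg b a 0) → X ∈ (𝒜 (Wdg a b 0)).commutant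

/-- The polynomials in the fields smeared with test functions supported in `W`, each one
together with its formal adjoint. -/
inductive Al (Q : Theory D) (W : Set V) : (D → D) → (D → D) → Prop
  | one : Al Q W (fun v => v) (fun v => v)
  | add (X X' Y Y' : D → D) : Al Q W X X' → Al Q W Y Y' →
      Al Q W (fun v => X v + Y v) (fun v => X' v + Y' v)
  | smul (c : ℂ) (X X' : D → D) : Al Q W X X' → Al Q W (fun v => c • X v) (fun v => star c • X' v)
  | fld (A B : Fld D) (g : Fn) (X X' : D → D) : Q.fld A → Q.fld B →
      (∀ f v w, IsTest f → inner ℂ (A f v) w = inner ℂ v (B (bar f) w)) → In W g → Al Q W X X' →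
      Al Q W (fun v => A g (X v)) (fun v => X' (B (bar g) v))

/-- The potential is weakly local: `⟨X* Ω, l(f)⟩ = ⟨l(bar f), X Ω⟩` for all polynomials `X` in the
fields in the causal complement of the support of the test function `f`. -/
def WeakLoc (Q : Theory D) (l : Fn → Completion D) : Prop :=
  ∀ f X X', In Set.univ f → Al Q (cc (tsupport f)) X X' →
    inner ℂ ((X' Q.vac : D) : Completion D) (l f) =
      inner ℂ (l (bar f)) ((X Q.vac : D) : Completion D)

/-- A covariant tensor multiplet of tempered distributions with values in the Hilbert space, of rank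
`k` and scaling dimension `d`. -/
structure Mult (Q : Theory D) (k : ℕ) (d : ℝ) (φ : (Fin k → Ix) → Fn → Completion D) : Prop where
  lin : ∀ μ (f g : Fn) (c : ℂ), IsTest f → IsTest g →
    φ μ (fun x => f x + c * g x) = φ μ f + c • φ μ g
  cont : ∀ μ, Continuous fun g => φ μ (ev g)
  cov : ∀ μ s L a f, 0 < s → IsLor L → IsTest f → φ μ f = ∑ ν : Fin k → Ix,
    ((s ^ (4 - d) * ∏ i, L (ν i) (μ i) : ℝ) : ℂ) • Ue Q s L a (φ ν fun x => f (sim s L a x))

/-- **Field reconstruction.** Every covariant multiplet that is weakly local relative to the fields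
is generated from the vacuum by local fields of the theory. -/
def Rec (Q : Theory D) : Prop :=
  ∀ k d φ, Mult Q k d φ → (∀ μ, WeakLoc Q (φ μ)) → ∃ Φ : (Fin k → Ix) → Fld D,
    ∀ μ, Q.bose (Φ μ) ∧ ∀ f, IsTest f → ((Φ μ f Q.vac : D) : Completion D) = φ μ f

/-- `J` is a virial current: a hermitian local vector field (with contravariant components `J m`)
of scaling dimension three whose divergence is the trace of `T`. -/
structure IsVirial (Q : Theory D) (T : Ix → Ix → Fld D) (J : Ix → Fld D) : Prop where
  bose : ∀ m, Q.bose (J m)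
  herm : ∀ m f v w, IsTest f → inner ℂ (J m f v) w = inner ℂ v (J m (bar f) w)
  cov : ∀ m s L a f v, 0 < s → IsLor L → IsTest f → J m f (Q.U s L a v) =
    ∑ k, (s * L k m : ℂ) • Q.U s L a (J k (fun x => f (sim s L a x)) v)
  div : ∀ f v, IsTest f → tr T f v = -∑ m, J m (pd m f) v

/-- The tensor `T^{mn} + (∂^n J^m - η^{mn} ∂·J) / 3`. -/
def improveJ (T : Ix → Ix → Fld D) (J : Ix → Fld D) : Ix → Ix → Fld D := fun m n f v =>
  T m n f v - (eta n / 3 : ℂ) • J m (pd n f) v +
    (bas m (eta m) n / 3 : ℂ) • ∑ k, J k (pd k f) v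

/-- The commutator of the field `t`, smeared with `g`, and the field `B`, smeared with `f`,
applied to `v`. -/
def cm (t : Fld D) (g : Fn) (B : Fld D) (f : Fn) (v : D) : D := t g (B f v) - B f (t g v)

/-- `t` is a traceless improvement of the stress tensor `T`: a symmetric, hermitian, covariant,
conserved and traceless tensor field, local relative to itself and to all fields of the theory, with
the same translation and Lorentz charges as `T`: for large cutoffs, the commutators of the
densities `t^{0n}` and `x^l t^{0n} - x^n t^{0l}` with the fields are those of `T`. -/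
structure IsImpr (Q : Theory D) (T t : Ix → Ix → Fld D) : Prop where
  lin : ∀ m n f g (c : ℂ) v, IsTest f → IsTest g →
    t m n (fun x => f x + c * g x) v = t m n f v + c • t m n g v
  cont : ∀ m n v, Continuous fun g => t m n (ev g) v
  symm : ∀ m n f v, IsTest f → t m n f v = t n m f v
  herm : ∀ m n f v w, IsTest f → inner ℂ (t m n f v) w = inner ℂ v (t m n (bar f) w)
  cov : ∀ m n s L a f v, 0 < s → IsLor L → IsTest f → t m n f (Q.U s L a v) =
    ∑ k, ∑ l, (L k m * L l n : ℂ) • Q.U s L a (t k l (fun x => f (sim s L a x)) v)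
  conserved : ∀ n f v, IsTest f → ∑ m, t m n (pd m f) v = 0
  traceless : ∀ f v, IsTest f → tr t f v = 0
  loc : ∀ m n B f g v, Q.fld B → IsTest f → IsTest g → Sep f g → cm (t m n) f B g v = 0
  self : ∀ m n k l f g v, IsTest f → IsTest g → Sep f g → cm (t m n) f (t k l) g v = 0
  charge : ∀ F B f, IsCutoff F → Q.fld B → IsTest f → HasCompactSupport f →
    ∀ᶠ R in atTop, ∀ l n v, cm (t o n) (F R) B f v = cm (T o n) (F R) B f v ∧
      cm (t o n) (xg l (F R)) B f v - cm (t o l) (xg n (F R)) B f v =
        cm (T o n) (xg l (F R)) B f v - cm (T o l) (xg n (F R)) B f v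

/-- `B` is the formal adjoint of `A`. -/
def IsAdj (A B : Fld D) : Prop :=
  ∀ f v w, IsTest f → inner ℂ (A f v) w = inner ℂ v (B (bar f) w)

/-- `A` is a local field of the theory `Q`, with formal adjoint `B`: a translation covariant
operator valued tempered distribution, relatively local to the fields of `Q`, whose operators map
`D` into the Hilbert space. -/
structure IsLoc (Q : Theory D) (A B : Fn → D → Completion D) : Prop where
  linf : ∀ (f g : Fn) (c : ℂ) v, IsTest f → IsTest g →
    A (fun x => f x + c * g x) v = A f v + c • A g v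
  linv : ∀ f (c : ℂ) v w, IsTest f → A f (v + c • w) = A f v + c • A f w
  cont : ∀ v, Continuous fun g => A (ev g) v
  adj : ∀ f (v w : D), IsTest f →
    inner ℂ (A f v) (w : Completion D) = inner ℂ (v : Completion D) (B (bar f) w)
  transl : ∀ a f (v z : D), IsTest f → inner ℂ (Q.U 1 one a z : Completion D)
    (A f (Q.U 1 one a v)) = inner ℂ (z : Completion D) (A (fun x => f (sim 1 one a x)) v)
  loc : ∀ C C' f g v z, Q.fld C → Q.fld C' → IsAdj C C' → IsTest f → IsTest g → Sep f g →
    inner ℂ (C' (bar g) z : Completion D) (A f v) = inner ℂ (z : Completion D) (A f (C g v))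

/-- The charge of the current `X^n t_{mn}` with the cutoff `g`. -/
def chg (t : Ix → Ix → Fn → D → Completion D) (X : Ix → V → ℝ) (g : Fn) (v : D) : Completion D :=
  ∑ n, t o n (fun x => (eta n * X n x : ℝ) * g x) v

/-- The matrix element between `w` and `v` of the commutator of the charge of the current
`X^n t_{mn}` with `A f` converges to `c` when the cutoff is removed; `B` is the adjoint of `A`. -/
def Comm (t : Ix → Ix → Fn → D → Completion D) (X : Ix → V → ℝ) (A B : Fld D) (f : Fn)
    (w v : D) (c : ℂ) : Prop :=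
  ∀ F, IsCutoff F → Tendsto (fun R => inner ℂ (chg t X (F R) w) (A f v : Completion D) -
    inner ℂ (B (bar f) w : Completion D) (chg t X (F R) v)) atTop (𝓝 c)

/-- `P` is a local field, with formal adjoint `P'`: a translation covariant operator valued
tempered distribution, whose operators map `D` into the Hilbert space, which commutes at spacelike
distance with every field `C` of `Q` such that `A` or `C` is bosonic. -/
structure IsLocF (Q : Theory D) (A : Fld D) (P P' : Fn → D → Completion D) : Prop where
  linf : ∀ (f g : Fn) (c : ℂ) v, IsTest f → IsTest g →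
    P (fun x => f x + c * g x) v = P f v + c • P g v
  linv : ∀ f (c : ℂ) v w, IsTest f → P f (v + c • w) = P f v + c • P f w
  cont : ∀ v, Continuous fun g => P (ev g) v
  adj : ∀ f (v w : D), IsTest f →
    inner ℂ (P f v) (w : Completion D) = inner ℂ (v : Completion D) (P' (bar f) w)
  transl : ∀ a f (v z : D), IsTest f → inner ℂ (Q.U 1 one a z : Completion D)
    (P f (Q.U 1 one a v)) = inner ℂ (z : Completion D) (P (fun x => f (sim 1 one a x)) v)
  loc : ∀ C C' f g v z, Q.fld C → Q.fld C' → IsAdj C C' → (Q.bose A ∨ Q.bose C) → IsTest f →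
    IsTest g → Sep f g → inner ℂ (C' (bar g) z : Completion D) (P f v) =
      inner ℂ (z : Completion D) (P f (C g v))

/-- For every conformal Killing vector field `X` the charge of the current `X^n t_{mn}` acts on
every field `A` of `Q` by the infinitesimal conformal transformation
`-X^n ∂_n A - (∂_m X^n) S_mn A - (∂_m ∂_n X^n) K_m A` with local fields `S_mn A` and `K_m A`. -/
def ConfAct (Q : Theory D) (t : Ix → Ix → Fld D) : Prop :=
  ∀ A B, Q.fld A → Q.fld B → IsAdj A B → ∃ (S S' : Ix → Ix → Fn → D → Completion D)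
    (K K' : Ix → Fn → D → Completion D), (∀ m n, IsLocF Q A (S m n) (S' m n)) ∧
      (∀ m, IsLocF Q A (K m) (K' m)) ∧
      ∀ X f w v, IsKil X → IsTest f → HasCompactSupport f →
        Comm (fun m n f v => ((t m n f v : D) : Completion D)) X A B f w v
        (Complex.I * inner ℂ (w : Completion D) (∑ n, (A (pd n fun x => X n x * f x) v) -
          ∑ m, ∑ n, S m n (fun x => pd m (fun y => (X n y : ℂ)) x * f x) v -
          ∑ m, ∑ n, K m (fun x => pd m (pd n fun y => (X n y : ℂ)) x * f x) v))

/-- A field, as a family of operators from `D` to the Hilbert space. -/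
def hil (A : Fld D) : Fn → D → Completion D := fun f v => (A f v : D)

/-- Fermi fields: odd under the grading `G`. -/
def Fer (Q : Theory D) (G : D → D) (A : Fld D) : Prop :=
  Q.fld A ∧ ∀ f v, IsTest f → A f (G v) = -G (A f v)

/-- **Theories with fermions.** `G` is the grading `(-1)^F`. Every field is the sum of a Bose and
a Fermi field, Fermi fields anticommute at space-like separation, and the similitudes are
represented up to `G` (exactly, if one factor has no Lorentz part). -/
structure Gr (Q : Theory D) (G : D → D) : Prop where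
  inv : ∀ v, G (G v) = v
  herm : ∀ v w, inner ℂ (G v) w = inner ℂ v (G w)
  bose : ∀ B f v, Q.bose B → IsTest f → B f (G v) = G (B f v)
  split : ∀ B, Q.fld B → ∃ C C', Q.bose C ∧ Fer Q G C' ∧ ∀ f v, IsTest f → B f v = C f v + C' f v
  anti : ∀ B C f g v, Fer Q G B → Fer Q G C → IsTest f → IsTest g → Sep f g →
    B f (C g v) = -C g (B f v)
  GU : ∀ s L a v, 0 < s → IsLor L → Q.U s L a (G v) = G (Q.U s L a v)
  mul : ∀ s L a s' L' a', 0 < s → 0 < s' → IsLor L → IsLor L' →
    (∀ v, Q.U s L a (Q.U s' L' a' v) =
      Q.U (s * s') (fun m => sim 1 L 0 (L' m)) (sim s L a a') v) ∨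
    L ≠ one ∧ L' ≠ one ∧ ∀ v, Q.U s L a (Q.U s' L' a' v) =
      G (Q.U (s * s') (fun m => sim 1 L 0 (L' m)) (sim s L a a') v)

/-- The charge of the current `X^n t_{mn}` acts on the components `P a` (with formal adjoints
`P' a`) as the infinitesimal conformal transformation `X` acts on a primary field of spin `k` and
dimension `Δ`: the commutator of the charge with `P` is
`i (-X^n ∂_n P - Δ / 4 (∂·X) P + (∂_m X^n - δ_m^n ∂·X / 4) S_mn P)`. -/
def ActS (t : Ix → Ix → Fld D) (X : Ix → V → ℝ) (k : Rp) (Δ : ℝ)
    (P P' : Fin k.n → Fn → D → Completion D) : Prop :=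
  ∀ a f (w v : D) F, In Set.univ f → IsCutoff F → Tendsto (fun R =>
    inner ℂ (chg (fun m n => hil (t m n)) X (F R) w) (P a f v) -
      inner ℂ (P' a (bar f) w) (chg (fun m n => hil (t m n)) X (F R) v)) atTop
    (𝓝 (Complex.I * inner ℂ (w : Completion D) (∑ n, P a (pd n fun x => X n x * f x) v -
      ((Δ / 4 : ℝ) : ℂ) • P a (fun x => dvg X x * f x) v + ∑ b, ∑ m, ∑ n, k.S m n b a •
        P b (fun x => (pd m (fun y => (X n y : ℂ)) x - one m n * dvg X x / 4) * f x) v)))

/-- **Conformal primaries** of spin `k` and dimension `d`: local Bose (`e = false`) or Fermi fields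
(`e = true`: the twisted field `P G` is local relative to all fields) on which all conformal charges
of `t` act as on a primary field of dimension `Re d`. -/
structure PrimS (Q : Theory D) (G : D → D) (t : Ix → Ix → Fld D) (e : Bool) (k : Rp) (d : ℂ)
    (P P' : Fin k.n → Fn → D → Completion D) : Prop where
  loc : ∀ a, ∃ R, IsLoc Q (fun f v => P a f (if e then G v else v)) R
  adj : ∀ a f (v w : D), IsTest f →
    inner ℂ (P a f v) (w : Completion D) = inner ℂ (v : Completion D) (P' a (bar f) w)
  cov : ∀ a (s : ℝ) L f (v z : D), 0 < s → IsLor L → IsTest f →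
    inner ℂ (Q.U s L 0 z : Completion D) (P a f (Q.U s L 0 v)) = ∑ b,
      (s : ℂ) ^ (4 - d) * k.ρ L b a *
        inner ℂ (z : Completion D) (P b (fun x => f (sim s L 0 x)) v)
  act : ∀ X, IsKil X → ActS t X k d.re P P'

/-- The field `A` is a finite linear combination of derivatives of conformal primaries. -/
def DescS (Q : Theory D) (G : D → D) (t : Ix → Ix → Fld D) (e : Bool) (A : Fld D) : Prop :=
  ∃ (n : ℕ) (k : Fin n → Rp) (d c : Fin n → ℂ) (α : Fin n → List Ix) (a : ∀ i, Fin (k i).n)
    (P P' : ∀ i, Fin (k i).n → Fn → D → Completion D),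
    (∀ i, PrimS Q G t e (k i) (d i) (P i) (P' i)) ∧
    ∀ f v, IsTest f → hil A f v = ∑ i, c i • P i (a i) ((α i).foldr pd f) v

/-- **Conformal field theories with fermions.** The vacuum is invariant under the conformal charges
of `t`. On every multiplet of Bose fields or of Fermi fields with a spin and a scaling dimension `d`
the charges of `t` generate the similitudes, with the dimension `Re d`, and its components are finite
linear combinations of derivatives of conformal primaries. -/
structure CFS (Q : Theory D) (G : D → D) (t : Ix → Ix → Fld D) : Prop where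
  ward : ∀ X Y Y' F, IsKil X → Al Q Set.univ Y Y' → IsCutoff F → Tendsto (fun R =>
    inner ℂ (chg (fun m n => hil (t m n)) X (F R) Q.vac) ((Y Q.vac : D) : Completion D) -
      inner ℂ ((Y' Q.vac : D) : Completion D) (chg (fun m n => hil (t m n)) X (F R) Q.vac))
    atTop (𝓝 0)
  mp : ∀ (e : Bool) k d (Φ Φ' : Fin k.n → Fld D), IsMl Q k Φ → (∀ a, Dim Q d (Φ a) ∧
    (if e then Fer Q G (Φ a) else Q.bose (Φ a)) ∧ IsAdj (Φ a) (Φ' a)) →
    (∀ r X, IsSim r X → ActS t (fun n x => X x n) k d.re (fun a => hil (Φ a)) fun a => hil (Φ' a)) ∧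
      ∀ a, DescS Q G t e (Φ a)

/-- **Conformal invariance.** `J` is a virial current for `T`, and `t = T + (∂J - η ∂·J) / 3` is a
traceless improvement of `T` whose charges act by the infinitesimal conformal transformations. If
all fields have finite scaling laws (logarithms are allowed), then all multiplets of Bose or Fermi
fields with a spin consist of descendants of conformal primaries. -/
structure CInv (Q : Theory D) (G : D → D) (T : Ix → Ix → Fld D) (J : Ix → Fld D) : Prop where
  vir : IsVirial Q T J
  impr : IsImpr Q T (improveJ T J)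
  act : ConfAct Q (improveJ T J)
  cfs : CFS Q G (improveJ T J)
  desc : FSL Q → ∀ (e : Bool) k (Φ : Fin k.n → Fld D) a, IsMl Q k Φ →
    (∀ a, if e then Fer Q G (Φ a) else Q.bose (Φ a)) → DescS Q G (improveJ T J) e (Φ a)

/-- The fields are covariant under the similitude `x ↦ s L x + a`: every field transforms into
a linear combination of fields. -/
def Cov (Q : Theory D) (s : ℝ) (L : Ix → V) (a : V) : Prop := DenseRange (Q.U s L a) ∧
  ∀ B, Q.fld B → ∃ (n : ℕ) (c : Fin n → ℂ) (A : Fin n → Fld D), (∀ i, Q.fld (A i)) ∧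
    ∀ f v, IsTest f →
      Q.U s L a (B (fun x => f (sim s L a x)) v) = ∑ i, c i • A i f (Q.U s L a v)

variable {D' : Type*} [NormedAddCommGroup D'] [InnerProductSpace ℂ D']

/-- The field `A'` extends the field `A` along the isometry `i`. -/
def Xt (i : D →ₗᵢ[ℂ] D') (A : Fld D) (A' : Fld D') : Prop :=
  ∀ f v, IsTest f → i (A f v) = A' f (i v)

/-- **Sectors.** The theory `Q` is a sector of the scale covariant theory `Q'` (which may contain
spinor fields): the vacuum and the similitudes of `Q` are restrictions of those of `Q'`, and the Bose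
fields of `Q`, with their adjoints, are restrictions of Bose fields of `Q'`. -/
structure Sect (Q : Theory D) (Q' : Theory D') (i : D →ₗᵢ[ℂ] D') : Prop where
  vac : i Q.vac = Q'.vac
  U : ∀ s L a v, 0 < s → IsLor L → i (Q.U s L a v) = Q'.U s L a (i v)
  cov : ∀ s L a, 0 < s → IsLor L → Cov Q' s L a
  bose : ∀ A B, Q.bose A → IsAdj A B →
    ∃ A' B', Q'.bose A' ∧ IsAdj A' B' ∧ Xt i A A' ∧ Xt i B B'

end

end Vale.Agent.P352R.P
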