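import Vale.Agent.P352L.StA
import Vale.Agent.P352X.CL.BZ

/-!
# P352R: only the stress tensor has a finite scaling law
-/

set_option autoImplicit false
set_option linter.all false

open Filter Topology
open scoped ComplexConjugate

namespace Vale.Agent.P352R.Cw

open Vale.Agent.P352X Vale.Agent.P352L
open Vale.Agent.P352 Vale.Agent.P352.GF Vale.Agent.P352.BW Vale.Agent.P352.H246
open Vale.Agent.P352.H496 Vale.Agent.P352.H755 Vale.Agent.P352.H15
open Fss hiding U_dil u_inv inv_u u_adj dl_herm dl_cov dl_cons dl_charge dl_pch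
open Fss.G StA

noncomputable section

variable {D : Type*} [NormedAddCommGroup D] [InnerProductSpace ℂ D] {Q : Theory D}
  {A : (V → V) → D → D} {T : Ix → Ix → Fld D} {B : Fld D} {f g : Fn} {s : ℝ}

/-- covariance under dilations -/
def Cd (Q : Theory D) : Prop := ∀ s, 0 < s → Cov Q s GF.one 0

/-- the generators are covariant under dilations -/
def Cj (Q : Theory D) (A : (V → V) → D → D) : Prop := ∀ s (hs : 0 < s) X, IsSim 0 X →
  ∃ P : D →ₗ[ℂ] D, (∀ z, P z = A (fun y => s⁻¹ • X (s • y)) z) ∧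
    ∀ z, u Q s hs (P (u Q s⁻¹ (inv_pos.2 hs) z)) = A X z

theorem ds_inv' (hs : 0 < s) (f : Fn) : ds s (ds s⁻¹ f) = f := by
  simpa only [inv_inv] using ds_inv (inv_pos.2 hs) f

theorem key (R : M1 Q) (h : Cd Q) (hB : Q.fld B) (hs : 0 < s) :
    ∃ (n : ℕ) (c : Fin n → ℂ) (C : Fin n → Fld D), (∀ i, Q.fld (C i)) ∧ ∀ f v, IsTest f →
      B f (u Q s hs v) = u Q s hs (∑ i, c i • C i (ds s f) v) := by
  obtain ⟨n, c, C, a, b⟩ := (h _ (inv_pos.2 hs)).2 B hB
  refine ⟨n, c, C, a, fun f v hf => ?_⟩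
  have : u Q s⁻¹ (inv_pos.2 hs) (B (ds s⁻¹ (ds s f)) (u Q s hs v)) =
      ∑ i, c i • C i (ds s f) (u Q s⁻¹ (inv_pos.2 hs) (u Q s hs v)) :=
    b (ds s f) (u Q s hs v) (ds_test hs hf)
  rw [ds_inv hs, inv_u R] at this
  rw [← this, u_inv R]

section
variable {n : ℕ} {c : Fin n → ℂ} {C : Fin n → Fld D} (R : M1 Q) (hs : 0 < s)
include R

theorem comm (h : ∀ f v, IsTest f → B f (u Q s hs v) = u Q s hs (∑ i, c i • C i (ds s f) v))
    (hf : IsTest f) (P : D →ₗ[ℂ] D) (v w : D) :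
    inner ℂ w (u Q s hs (P (u Q s⁻¹ (inv_pos.2 hs) (B f v))) -
      B f (u Q s hs (P (u Q s⁻¹ (inv_pos.2 hs) v)))) = ∑ d, c d *
      inner ℂ (u Q s⁻¹ (inv_pos.2 hs) w) (P (C d (ds s f) (u Q s⁻¹ (inv_pos.2 hs) v)) -
        C d (ds s f) (P (u Q s⁻¹ (inv_pos.2 hs) v))) := by
  conv_lhs => rw [← u_inv R hs v]
  rw [h _ _ hf, h _ _ hf, inv_u R, inv_u R, ← map_sub, u_adj R, map_sum,
    ← Finset.sum_sub_distrib, inner_sum]
  exact Finset.sum_congr rfl fun d _ => by rw [map_smul, ← smul_sub, inner_smul_right]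

theorem charge (hT : Stress0 Q T) (hC : Cd Q) (hB : Q.fld B) {G : ℝ → Fn} (hG : IsCutoff G)
    (n : Ix) (hf : IsTest f) (hc : HasCompactSupport f) (v w : D) : Tendsto (fun r => inner ℂ w
      (dl Q s hs (T o n) (G r) (B f v) - B f (dl Q s hs (T o n) (G r) v))) atTop
      (𝓝 (inner ℂ w ((Complex.I * eta n) • B (pd n f) v))) := by
  obtain ⟨k, c, C, h1, h⟩ := key R hC hB hs
  have hb := Q.bose_fld _ (hT.bose o n)
  have s0 : (s : ℂ) ≠ 0 := Complex.ofReal_ne_zero.2 hs.ne'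
  have l := tendsto_finset_sum Finset.univ fun d _ => ((hT.charge _ n _ _
    (u Q s⁻¹ (inv_pos.2 hs) v) (u Q s⁻¹ (inv_pos.2 hs) w) (cut_ds hG hs) (h1 d) (ds_test hs hf)
    (ds_cpt hs hc)).const_mul (s : ℂ)⁻¹).const_mul (c d)
  refine (l.congr' ((isTest_cutoff hG).mono fun r hr => ?_)).trans (le_of_eq (congrArg _ ?_))
  · refine Eq.trans (Finset.sum_congr rfl fun d _ => ?_)
      (comm R hs h hf (fl hb (ds_test hs hr)) v w).symm
    rw [lin1 hb (ds_test hs hr), lin1 hb (ds_test hs hr),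
      H746.fld_smul (h1 d) (ds_test hs hf), ← smul_sub, inner_smul_right, inv_mul_cancel_left₀ s0]
    rfl
  · conv_rhs => rw [← u_inv R hs v, h _ _ (Ap.test_pd n hf), ← map_smul, u_adj R,
      Finset.smul_sum, inner_sum]
    refine Finset.sum_congr rfl fun d _ => ?_
    rw [ds_pd hs hf, lin1 (h1 d) (ds_test hs (Ap.test_pd n hf))]
    simp only [inner_smul_right]
    field_simp

theorem pch (hT : Stress0 Q T) (J : Cj Q A) (hP : ND.PCh Q T A) (hC : Cd Q) (hB : Q.fld B)
    {G : ℝ → Fn} (hG : IsCutoff G) {X : V → V}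
    (hX : IsSim 0 X) (hf : IsTest f) (hc : HasCompactSupport f) (v w : D) :
    Tendsto (fun r => inner ℂ w (ND.cur (fun m n => dl Q s hs (T m n)) X (G r) (B f v) -
      B f (ND.cur (fun m n => dl Q s hs (T m n)) X (G r) v))) atTop
      (𝓝 (inner ℂ w (A X (B f v) - B f (A X v)))) := by
  obtain ⟨k, c, C, h1, h⟩ := key R hC hB hs
  have hb := fun m n => Q.bose_fld _ (hT.bose m n)
  have s0 : (s : ℂ) ≠ 0 := Complex.ofReal_ne_zero.2 hs.ne'
  obtain ⟨P, e0, eP⟩ := J s hs X hX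
  set X' : V → V := fun z => s⁻¹ • X (s • z) with hX'
  have hX1 : IsSim 0 X' := by
    obtain ⟨c, w, h1, h2⟩ := hX
    refine ⟨s⁻¹ • c, w, h1, fun z n => ?_⟩
    simp only [hX', Pi.smul_apply, h2, smul_eq_mul, mul_assoc, ← Finset.mul_sum]
    field_simp
  have l := tendsto_finset_sum Finset.univ fun d _ => (hP _ X' _ _ (u Q s⁻¹ (inv_pos.2 hs) v)
    (u Q s⁻¹ (inv_pos.2 hs) w) (cut_ds hG hs) hX1 (h1 d) (ds_test hs hf)
    (ds_cpt hs hc)).const_mul (c d)
  refine (l.congr' ((isTest_cutoff hG).mono fun r hr => ?_)).trans (le_of_eq (congrArg _ ?_))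
  · have ht : IsTest fun x => (s : ℂ) * ds s (G r) x := Ap.sw_cmul s (ds_test hs hr)
    have e : ∀ z, ND.cur (fun m n => dl Q s hs (T m n)) X (G r) z =
        u Q s hs (curL hb hX1 ht (u Q s⁻¹ (inv_pos.2 hs) z)) := fun z => by
      rw [curL_apply, ND.cur, ND.cur, map_sum]
      refine Finset.sum_congr rfl fun n _ => ?_
      rw [Fss.dl]
      congr 2
      funext x
      simp only [ds_apply, hX', Pi.smul_apply, smul_eq_mul]
      push_cast
      field_simp
    rw [e, e, comm R hs h hf]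
    simp only [curL_apply]
  · rw [← eP, ← eP, comm R hs h hf P v w]
    simp only [e0]

end

theorem Cj.lin (J : Cj Q A) {X : V → V} (hX : IsSim 0 X) : IsLinearMap ℂ (A X) := by
  obtain ⟨P, -, e⟩ := J 1 one_pos X hX
  exact funext e ▸ (u Q 1 one_pos ∘ₗ P ∘ₗ u Q 1⁻¹ (inv_pos.2 one_pos)).isLinear

open CL hiding key comm charge pch in
theorem fam (R : M1 Q) (J : Cj Q A) (hF : Cd Q) (hT : Stress0 Q T) (hP : ND.PCh Q T A)
    {F : Ix → Ix → Finset (ℂ × ℕ)} {C : Ix → Ix → ℂ × ℕ → Fld D}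
    (hC : ∀ m n, Scl Q (T m n) (F m n) (C m n)) :
    ∃ n0, Fam (hull Q) (fun τ m n => TT (F m n) (C m n) τ) n0 ∧
      ∀ τ, ND.PCh (hull Q) (fun m n => TT (F m n) (C m n) τ) A := by
  obtain ⟨M, S, c, c1, hc⟩ := ex_sel F
  have fm := fun τ m n f v (hf : IsTest f) => tt_fm (hC m n) R (hc m n).1 τ hf v
  have hb : ∀ τ m n, (hull Q).bose (TT (F m n) (C m n) τ) := fun τ m n =>
    Submodule.sum_mem _ fun p _ => Submodule.smul_mem _ _ (sp_of (((hC m n).1 p).2 (hT.bose m n)))
  have hb' := fun τ m n => (hull Q).bose_fld _ (hb τ m n)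
  have cv : ∀ τ m n L a f v, IsLor L → IsTest f → TT (F m n) (C m n) τ f (Q.U 1 L a v) =
      ∑ k, ∑ l, (L k m * L l n : ℂ) •
        Q.U 1 L a (TT (F k l) (C k l) τ (fun x => f (sim 1 L a x)) v) :=
    fun τ m n L a f v hL hf => by
      have t1 := Ap.test_sim one_pos hL a hf
      let W : D →ₗ[ℂ] D := ⟨⟨Q.U 1 L a, U_add one_pos hL a⟩, U_smul one_pos hL a⟩
      show _ = ∑ k, ∑ l, _ • W _
      simp only [fm _ _ _ _ _ t1, fm _ _ _ f _ hf, map_sum, map_smul, Finset.smul_sum,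
        dl_cov R hT _ m n hL a hf]
      rw [Finset.sum_comm]
      refine Finset.sum_congr rfl fun k _ => ?_
      rw [Finset.sum_comm]
      exact Finset.sum_congr rfl fun l _ => Finset.sum_congr rfl fun t _ => smul_comm _ _ _
  have dim : ∀ τ m n s (hs : 0 < s) f v, IsTest f → TT (F m n) (C m n) (τ + Real.log s) f
      (u Q s hs v) = u Q s hs (TT (F m n) (C m n) τ (ds s f) v) := fun τ m n s hs f v hf => by
    obtain ⟨s, rfl⟩ : ∃ t, Real.exp t = s := ⟨_, Real.exp_log hs⟩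
    rw [Real.log_exp, fm _ _ _ _ _ hf, fm _ _ _ _ _ (ds_test hs hf), map_sum]
    refine Finset.sum_congr rfl fun t _ => ?_
    have := dl_dl (B := T m n) (f := f) R s (τ + t) (u Q _ hs v)
    rw [Fss.dl, inv_u R] at this
    rw [map_smul, this]
    simp only [add_assoc, add_left_comm s]
  refine ⟨M, ⟨fun τ => ⟨hb τ, fun m n f v hf => ?_, fun m n f v w hf => ?_, cv τ,
    fun n f v hf => ?_, fun G n B f v w hG hB hf hc' => ?_⟩, fun τ m n s L a f v hs hL hf => ?_,
    fun m n f v hf => ?_⟩, fun τ G X B f v w hG hX hB hf hc' => ?_⟩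
  · simp only [fm _ _ _ f v hf, Fss.dl, hT.symm m n _ _ (ds_test (Real.exp_pos _) hf)]
  · rw [fm _ _ _ f v hf, tt_fm (hC m n) R (hc m n).2 τ (Ap.test_bar hf), sum_inner, inner_sum]
    exact Finset.sum_congr rfl fun t _ => by
      rw [inner_smul_left, inner_smul_right, dl_herm R hT _ m n hf]
  · simp only [fun m => fm τ m n _ v (Ap.test_pd m hf)]
    rw [Finset.sum_comm]
    simp only [← Finset.smul_sum, dl_cons R hT _ n hf, smul_zero, Finset.sum_const_zero]
  · refine lim_sp ((isTest_cutoff hG).mono fun r hr => sp_fl (hb' τ o n) hr) v w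
      (fun B => (Complex.I * eta n) • B (pd n f) v) (smul_zero _) (fun B C a => by module)
      (fun B hB => ?_) hB
    exact lim c1 hB hf _ (fun t r => Fss.dl Q _ (Real.exp_pos (τ + t)) (T o n) (G r)) v w _
      ((isTest_cutoff hG).mono fun r hr z => fm τ o n _ z hr) fun t =>
        charge R _ hT hF hB hG n hf hc' v w
  · have t1 := Ap.test_sim one_pos hL a hf
    show TT _ _ _ f (Q.U s L a v) = ∑ k, ∑ l, _ • Q.U s L a _
    rw [← (U_dil R hs hL a v).2, cv _ m n L a f _ hL hf]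
    refine Finset.sum_congr rfl fun k _ => Finset.sum_congr rfl fun l _ => ?_
    rw [dim τ k l s hs _ v t1, (U_dil R hs hL a _).2,
      show ds s (fun x => f (sim 1 L a x)) = fun x => f (sim s L a x) from funext fun x => by
        rw [ds_apply]
        simp only [N86.c1_sim _ L a, simL_smul, one_smul]]
  · classical
    refine IsPol.of_poly (F m n) (fun p => if p.1 = 4 then (-Polynomial.X) ^ p.2 else 0)
      (fun p => C m n p f v) (fun p hp => ?_) fun τ => ?_
    · split_ifs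
      · simpa [Polynomial.natDegree_pow] using ((hc m n).1 p hp).1.le
      · simp
    · rw [tt_apply]
      refine Finset.sum_congr rfl fun p _ => ?_
      rw [← Complex.coe_smul, cf]
      split_ifs <;> simp
  · refine lim_sp ((isTest_cutoff hG).mono fun r hr => ?_) v w
      (fun B => A X (B f v) - B f (A X v)) ?_ (fun B C a => ?_) (fun B hB => ?_) hB
    · exact funext (curL_apply (hb' τ) hX hr) ▸ (curL (hb' τ) hX hr).isLinear
    · simpa using (J.lin hX).map_zero
    · simp only [(J.lin hX).map_add, (J.lin hX).map_smul]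
      module
    refine lim c1 hB hf _ (fun t r => ND.cur (fun m n => Fss.dl Q _ (Real.exp_pos (τ + t)) (T m n))
      X (G r)) v w _ ((isTest_cutoff hG).mono fun r hr z => ?_) fun t =>
        pch R _ hT J hP hF hB hG hX hf hc' v w
    simp only [ND.cur, fun n => fm τ o n _ z (test_sim0 hX hr n), Finset.smul_sum]
    exact Finset.sum_comm

/-- **the component of dimension four of a stress tensor is a stress tensor** -/
theorem fss (R : M1 Q) (J : Cj Q A) (hF : Cd Q) (hT : Stress0 Q T) (hP : ND.PCh Q T A)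
    {F : Ix → Ix → Finset (ℂ × ℕ)} {C : Ix → Ix → ℂ × ℕ → Fld D}
    (hC : ∀ m n, Scl Q (T m n) (F m n) (C m n)) (h4 : ∀ m n j, ((4 : ℂ), j) ∈ F m n ↔ j = 0) :
    Q.IsStress (fun m n => C m n (4, 0)) ∧ ND.PCh Q (fun m n => C m n (4, 0)) A := by
  obtain ⟨n0, h1, h2⟩ := fam R J hF hT hP hC
  have e : ∀ τ, (fun m n => TT (F m n) (C m n) τ) = fun m n => C m n (4, 0) := fun τ => by
    funext m n
    rw [TT, Finset.sum_eq_single_of_mem _ ((h4 m n 0).2 rfl) fun p hp ne => ?_]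
    · simp [cf]
    · rw [cf, if_neg fun e => ne ?_, zero_smul]
      obtain ⟨d, j⟩ := p
      obtain rfl : d = 4 := e
      rw [(h4 m n j).1 hp]
  have a := h1.st 0
  have b := h1.cov 0
  have c := h2 0
  simp only [fun τ m n => congrFun (congrFun (e τ) m) n] at a b c
  exact ⟨⟨fun m n => ((hC m n).1 _).2 (hT.bose m n), a.symm, a.herm, b, a.conserved,
    fun G n B f v w hG hB => a.charge G n B f v w hG (sp_of hB)⟩,
    fun G X B f v w hG hX hB => c G X B f v w hG hX (sp_of hB)⟩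

/-! ### sectors -/

/-- agreement with a linear combination of fields -/
def Ag (Q : Theory D) (B : Fld D) : Prop :=
  ∃ C, (hull Q).fld C ∧ ∀ f v, IsTest f → B f v = C f v

/-- relative locality -/
def Lc (Q : Theory D) (B : Fld D) : Prop :=
  ∀ C f g v, Q.fld C → IsTest f → IsTest g → Sep f g → B f (C g v) = C g (B f v)

theorem bz (a : Ag Q B) (l : Lc Q B) (z : ∀ f, IsTest f → B f Q.vac = 0) (hf : IsTest f) (v : D) :
    B f v = 0 := by
  obtain ⟨C, c, e⟩ := a
  let Q' : Theory D :=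
    { hull Q with
      bose := fun E => E = C
      bose_fld := fun E h => h ▸ c
      loc := fun E E' f g v h h' hf hg s => by
        subst h
        refine sp_ind (p := fun E' => E f (E' g v) = E' g (E f v)) h' (fun E' h' => ?_)
          (sp_fl c hf).map_zero fun E' E'' a h1 h2 => ?_
        · rw [← e f _ hf, ← e f _ hf]
          exact l E' f g v h' hf hg s
        · rw [(sp_fl c hf).map_add, (sp_fl c hf).map_smul, h1, h2] }
  exact (e f v hf).trans (FE.bz (Q := Q') rfl (fun f hf => (e f _ hf).symm.trans (z f hf)) hf v)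

theorem sep_ds (hs : 0 < s) (h : Sep f g) : Sep (ds s f) (ds s g) := fun x hx y hy => by
  have k : ∀ (f : Fn) x, x ∈ tsupport (ds s f) → s • x ∈ tsupport f := fun f x hx => by
    rw [show ds s f = f ∘ fun x => s • x from funext (ds_apply s f)] at hx
    exact tsupport_comp_subset_preimage _ (continuous_const_smul s) hx
  have := h _ (k f x hx) _ (k g y hy)
  have e : GF.mdot (fun m => (s • x) m - (s • y) m) (fun m => (s • x) m - (s • y) m) =
      s * s * GF.mdot (fun m => x m - y m) (fun m => x m - y m) := by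
    simp only [GF.mdot, Finset.mul_sum, Pi.smul_apply, smul_eq_mul]
    exact Finset.sum_congr rfl fun m _ => by ring
  rw [e] at this
  exact neg_of_mul_neg_right this (mul_pos hs hs).le

theorem dl_ag (R : M1 Q) (h : Cd Q) (hB : Q.fld B) (hs : 0 < s) : Ag Q (dl Q s hs B) := by
  obtain ⟨n, c, C, a, b⟩ := key R h hB (inv_pos.2 hs)
  refine ⟨∑ i, c i • C i, Submodule.sum_mem _ fun i _ => Submodule.smul_mem _ _ (sp_of (a i)),
    fun f v hf => ?_⟩
  rw [Fss.dl, b _ _ (ds_test hs hf), u_inv R, ds_inv hs]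
  simp only [Finset.sum_apply, Pi.smul_apply]

theorem dl_lc (R : M1 Q) (h : Cd Q) (hB : Q.bose B) (hs : 0 < s) : Lc Q (dl Q s hs B) :=
  fun E f g v hE hf hg p => by
    obtain ⟨n, c, C, a, b⟩ := key R h hE hs
    have k : ∀ y, u Q s⁻¹ (inv_pos.2 hs) (E g y) =
        ∑ i, c i • C i (ds s g) (u Q s⁻¹ (inv_pos.2 hs) y) := fun y => by
      conv_lhs => rw [← u_inv R hs y, b _ _ hg, inv_u R]
    rw [Fss.dl, Fss.dl, b _ _ hg, k, ← Fss.fl_apply (Q.bose_fld _ hB) (ds_test hs hf), map_sum]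
    refine congrArg _ (Finset.sum_congr rfl fun i _ => ?_)
    rw [map_smul, Fss.fl_apply, Q.loc _ _ _ _ _ hB (a i) (ds_test hs hf) (ds_test hs hg) (sep_ds hs p)]

/-- **scaling laws are inherited from a sector** -/
theorem scl_ext {D' : Type*} [NormedAddCommGroup D'] [InnerProductSpace ℂ D'] {Q' : Theory D'}
    {i : D →ₗᵢ[ℂ] D'} (h : Sect Q Q' i) (R : M1 Q) (R' : M1 Q') {B' : Fld D'} (hB : Q.bose B)
    (hB' : Q'.bose B') (x : Xt i B B') {F : Finset (ℂ × ℕ)} {C : ℂ × ℕ → Fld D}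
    (d : Scl Q B F C) : ∃ C', Scl Q' B' F C' ∧ ∀ p, Xt i (C p) (C' p) := by
  choose E _ hE using fun p => Q.adj _ (d.1 p).1
  choose C' _ a _ b _ using fun p => h.bose _ _ ((d.1 p).2 hB) (hE p)
  have cd : Cd Q' := fun s hs => h.cov s _ 0 hs H496.isLor_one
  refine ⟨C', ⟨fun p => ⟨Q'.bose_fld _ (a p), fun _ => a p⟩, fun s f v hs hf => ?_⟩, b⟩
  have hi := inv_pos.2 hs
  obtain ⟨Z, z1, z2⟩ := dl_ag R' cd (Q'.bose_fld _ hB') hi
  have z := bz (Q := Q') (B := fun g w => dl Q' _ hi B' g w - ∑ p ∈ F, CL.zz s p • C' p g w)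
    ⟨Z - ∑ p ∈ F, CL.zz s p • C' p, sub_mem z1 (Submodule.sum_mem _ fun p _ =>
      Submodule.smul_mem _ _ (sp_of (Q'.bose_fld _ (a p)))), fun g w hg => by
        simp only [z2 g w hg, Pi.sub_apply, Finset.sum_apply, Pi.smul_apply]⟩
    (fun E g k w hE hg hk p => by
      refine Eq.trans ?_ (map_sub (Fss.fl hE hk) _ _).symm
      rw [map_sum]
      refine congrArg₂ _ (dl_lc R' cd hB' hi E g k w hE hg hk p)
        (Finset.sum_congr rfl fun q _ => ?_)
      rw [map_smul, Fss.fl_apply, Q'.loc _ _ _ _ _ (a q) hE hg hk p])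
    (fun g hg => by
      have e : ∀ t (ht : 0 < t) y, u Q' t ht (i y) = i (u Q t ht y) := fun t ht y =>
        (h.U t _ 0 y ht H496.isLor_one).symm
      rw [sub_eq_zero, Fss.dl, ← h.vac, e, ← x _ _ (ds_test hi hg), e]
      simp only [inv_inv]
      rw [CL.key d hs (ds_test hi hg), inv_u R, ds_inv' hs, map_sum]
      exact Finset.sum_congr rfl fun p _ => by rw [i.map_smul, b p _ _ hg]) (ds_test hs hf) v
  rw [sub_eq_zero, Fss.dl, ds_inv hs] at z
  simp only [inv_inv] at z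
  refine (u_inv R' hs _).symm.trans ?_
  rw [show u Q' s⁻¹ hi (B' f (Q'.U s GF.one 0 v)) = _ from z, map_sum]
  exact Finset.sum_congr rfl fun p _ => map_smul (u Q' s hs) _ _

end

end Vale.Agent.P352R.Cw
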