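import Vale.Agent.P352R.Pub

namespace Vale.Agent.P352R.P

open P352.GF
open UniformSpace (Completion)

/-- **Reconstruction of currents.** Every covariant vector multiplet of dimension three that is
weakly local relative to the fields is generated from the vacuum by local fields of the theory. -/
def RecV {D : Type*} [NormedAddCommGroup D] [InnerProductSpace ℂ D] (Q : Theory D) : Prop :=
  ∀ φ, Mult Q 1 3 φ → (∀ μ, WeakLoc Q (φ μ)) → ∃ Φ : (Fin 1 → Ix) → Fld D,
    ∀ μ, Q.bose (Φ μ) ∧ ∀ f, IsTest f → ((Φ μ f Q.vac : D) : Completion D) = φ μ f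

end Vale.Agent.P352R.P
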