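import Vale.Agent.P352X.R.G3

/-!
# P352R: the virial current without curl, from the reconstruction of vectors of dimension three
-/

set_option autoImplicit false
set_option linter.all false

noncomputable section

open scoped SchwartzMap LineDeriv

namespace Vale.Agent.P352R.Cw

open Vale.Agent.P352X
open Vale.Agent.P352 Vale.Agent.P352.GF Vale.Agent.P352.BW Vale.Agent.P352.H246
open Vale.Agent.P352.H496 Vale.Agent.P352.H755 Vale.Agent.P352.H15
open UniformSpace (Completion)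
open G3p

/-- reconstruction of vectors of dimension three -/
def RecV {D : Type*} [NormedAddCommGroup D] [InnerProductSpace ℂ D] (Q : Theory D) : Prop :=
  ∀ φ, Mult Q 1 3 φ → (∀ μ, N86.WeakLoc Q (φ μ)) → ∃ Φ : (Fin 1 → Ix) → Fld D,
    ∀ μ, Q.bose (Φ μ) ∧ ∀ f, IsTest f → ((Φ μ f Q.vac : D) : Completion D) = φ μ f

theorem g3v {D : Type*} [NormedAddCommGroup D] [InnerProductSpace ℂ D] (c : Ctx D) (t : T3 c)
    (h2 : G2 c) (hR : RecV c.Q) : G3 c := by
  have g := t.grp
  have j := t.jc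
  have R := c.hN.toRep
  have hab : 0 < mdot va vb := by rw [md_ab]; exact one_pos
  obtain ⟨Φ, hΦ⟩ := hR _ (mult g) (weak h2)
  have hF : ∀ m, c.Q.fld (Φ fun _ => m) := fun m => c.Q.bose_fld _ (hΦ _).1
  have hv : ∀ m f, IsTest f → ((Φ (fun _ => m) f c.Q.vac : D) : Completion D) =
      ((-3 * eta m : ℝ) : ℂ) • c.l (pd m f) := fun m f hf => (hΦ _).2 f hf
  refine ⟨fun m => Φ fun _ => m, ⟨fun m => (hΦ _).1, fun m f v w hf => ?_,
    fun m s L a f v hs hL hf => ?_, fun f v hf => ?_⟩, fun m n f hf => ?_⟩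
  · obtain ⟨B, hB, hadj⟩ := c.Q.adj _ (hF m)
    rw [hadj f v w hf]
    congr 1
    obtain ⟨G, hG⟩ := Ap.test_bar hf
    rw [← hG]
    refine sub_eq_zero.1 (ST.vanish_of_compact (Grp.fC hB w - Grp.fC (hF m) w) G fun u hu _ => ?_)
    obtain ⟨y, hy⟩ := ex_wdg hu
    have hi : In (Wdg va vb y) (ev u) := ⟨⟨u, rfl⟩, hu, hy⟩
    have hi' := Ap.in_bar hi
    refine sub_eq_zero.2 (sepr j g (c.hN.fld _ _ _ hB hi) (c.hN.fld _ _ _ (hF m) hi) ?_ w)
    have p1 := Pr.of_afs (afs_of_aff (fun v w => hadj _ v w hi'.1) (c.hN.fld _ _ _ (hF m) hi'))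
      c.Q.vac
    have p2 := j.core va vb y _ _ null_va null_vb hab fun X X' hX =>
      weak h2 (fun _ => m) _ X X' ⟨hi'.1, hi'.2.1, Set.subset_univ _⟩ (hX.mono (wdg_cc hi'.2.2))
    rw [← (hΦ _).2 _ hi'.1, ← (hΦ _).2 _ (Ap.test_bar hi'.1)] at p2
    have p3 := p1.unique p2 (j.cyc' g null_va null_vb hab y)
    rw [Ap.bar_bar] at p3
    exact Completion.coe_injective D p3
  · obtain ⟨G, rfl⟩ := hf
    have key : ∀ u : Sch, (Grp.fC (hF m) (c.Q.U s L a v) - ∑ k, (s * L k m : ℂ) •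
        ((ueI c.Q hs hL a).toContinuousLinearMap ∘L Grp.fC (hF k) v ∘L Grp.simS hs hL a)) u =
        Φ (fun _ => m) (ev u) (c.Q.U s L a v) - ∑ k, (s * L k m : ℂ) •
          c.Q.U s L a (Φ (fun _ => k) (fun x => ev u (sim s L a x)) v) := fun u => by
      have e : ev (Grp.simS hs hL a u) = fun x => ev u (sim s L a x) :=
        funext (Grp.simS_apply hs hL a u)
      simp only [ContinuousLinearMap.sub_apply, ContinuousLinearMap.sum_apply,
        ContinuousLinearMap.smul_apply, ContinuousLinearMap.comp_apply, Grp.fC_apply, e]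
      rfl
    refine sub_eq_zero.1 ((key G).symm.trans (ST.vanish_of_compact _ G fun u hu _ => ?_))
    obtain ⟨y, hy⟩ := ex_wdg hu
    have hi : In (Wdg va vb y) (ev u) := ⟨⟨u, rfl⟩, hu, hy⟩
    have i1 := ue_inv R hs hL a
    have i2 : ∀ v, c.Q.U s⁻¹ (linv L) (-(sim s⁻¹ (linv L) 0 a)) (c.Q.U s L a v) = v := fun v =>
      (ueI c.Q hs hL a).injective (i1 _)
    have h3 := sepr j g (c.hN.fld _ _ _ (hF m) hi) (aff_sum (fun k => (s * L k m : ℂ)) fun k =>
      aff_conj g a hs hL (Set.image_preimage_subset _ _)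
        (c.hN.fld _ _ _ (hF k) (Ap.in_sim hs hL a hi))) ?_ (c.Q.U s L a v)
    · rw [key, h3]
      simp only [i2, sub_self]
    · refine Completion.coe_injective D ?_
      have h4 := (mult g).cov (fun _ => m) s L a _ hs hL hi.1
      rw [sum1] at h4
      rw [(hΦ _).2 _ hi.1, h4, c.Q.U_vac _ _ _ (inv_pos.2 hs) (isLor_linv hL),
        ← Completion.coe_toComplL (𝕜 := ℂ), map_sum]
      refine Finset.sum_congr rfl fun k _ => ?_
      rw [map_smul, Completion.coe_toComplL, ← ue_coe hs hL,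
        (hΦ _).2 _ (Grp.test_sim hs hL a hi.1), show (4 : ℝ) - 3 = 1 by norm_num, Real.rpow_one,
        Fin.prod_univ_one, Complex.ofReal_mul]
  · obtain ⟨G, rfl⟩ := hf
    have key : ∀ u : Sch, (∑ m, (eta m : ℂ) • Grp.fC (Grp.T_fld c.hT m m) v +
        ∑ m, Grp.fC (hF m) v ∘L LineDeriv.lineDerivOpCLM ℂ Sch (bas m 1 : V)) u =
        GF.tr c.T (ev u) v + ∑ m, Φ (fun _ => m) (pd m (ev u)) v := fun u => by
      simp only [ContinuousLinearMap.add_apply, ContinuousLinearMap.sum_apply,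
        ContinuousLinearMap.smul_apply, ContinuousLinearMap.comp_apply, Grp.fC_apply, Grp.pd_ev]
      rfl
    refine eq_neg_of_add_eq_zero_left
      ((key G).symm.trans (ST.vanish_of_compact _ G fun u hu _ => ?_))
    obtain ⟨y, hy⟩ := ex_wdg hu
    have hi : In (Wdg va vb y) (ev u) := ⟨⟨u, rfl⟩, hu, hy⟩
    have h3 := sepr j g (aff_of (g.affh _ _ hi)) (aff_sum (fun _ => (-1 : ℂ)) fun k =>
      c.hN.fld _ _ _ (hF k) (Ap.in_pd k hi)) ?_ v
    · rw [key]
      simp only [neg_one_smul, Finset.sum_neg_distrib] at h3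
      exact add_eq_zero_iff_eq_neg.2 h3
    · refine Completion.coe_injective D ?_
      rw [Ctx.Thf, ← c.hl.trace _ hi.1, ← Completion.coe_toComplL (𝕜 := ℂ), map_sum]
      have e : box (ev u) = fun x => ∑ m, (eta m : ℂ) * pd m (pd m (ev u)) x := rfl
      rw [e, l_sum _ _ fun m => Ap.test_pd m (Ap.test_pd m hi.1), Finset.smul_sum]
      refine Finset.sum_congr rfl fun k _ => ?_
      rw [map_smul, Completion.coe_toComplL, hv _ _ (Ap.test_pd k hi.1), smul_smul, smul_smul]
      congr 1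
      push_cast
      ring
  · refine Completion.coe_injective D ?_
    have e : pd n (pd m f) = pd m (pd n f) := by
      funext x
      simpa only [Ap.dv_bas] using Ap.dv_comm (Ap.sw_smooth hf) (bas n 1) (bas m 1) x
    have e2 : ∀ k, (eta k : ℂ) * ((-3 * eta k : ℝ) : ℂ) = -3 := fun k => by
      rw [← Complex.ofReal_mul, mul_left_comm, P352X.eta_sq]
      norm_num
    rw [Completion.coe_smul, Completion.coe_smul, hv _ _ (Ap.test_pd m hf),
      hv _ _ (Ap.test_pd n hf), smul_smul, smul_smul, e2, e2, e]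

end Vale.Agent.P352R.Cw
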