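import Vale.Agent.P352R.Cv2
import Vale.Agent.P352R.Rv
import Vale.Agent.P352R.Pub4

/-!
# P352R: only vectors of dimension three are reconstructed
-/

set_option autoImplicit false
set_option linter.all false

open Filter Topology

namespace Vale.Agent.P352R.Cw

open Vale.Agent.P352 Vale.Agent.P352.GF Vale.Agent.P352.BW Vale.Agent.P352.H246
open Vale.Agent.P352.H496 Vale.Agent.P352.H755 Vale.Agent.P352.H15
open Vale.Agent.P352X Vale.Agent.P352L Vale.Agent.P352H StA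
open UniformSpace (Completion)

noncomputable section

variable {D : Type*} [NormedAddCommGroup D] [InnerProductSpace ℂ D]
  {D' : Type*} [NormedAddCommGroup D'] [InnerProductSpace ℂ D']

theorem curlV (Q : Theory D) (A : (V → V) → D → D) (T : Ix → Ix → Fld D) (hA : ND.PCh Q T A)
    (hG : TfGen Q) (N : Set V → VonNeumannAlgebra (Completion D)) (hN : LNm Q A N)
    (hU : P352X.UVac Q) (hT : Q.IsStress T) (hR : RecV Q) :
    ∃ J, IsVirial Q T J ∧ Curl J Q.vac := by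
  obtain ⟨wp, wm, t, hP⟩ := tp_of Q T hT A hA hG N hN hU
  obtain ⟨c, rfl, rfl, e⟩ := ctx_row D Q T A N _ _ _ True hT hA hG hN hU fun _ => hP
  have : Fact c.tp := ⟨e ▸ trivial⟩
  obtain ⟨J, hJ, hc⟩ := g3v c (P352X.t3_thm c) (P352X.main c).2.1 hR
  exact ⟨J, hJ, curl_of hc⟩

open CA.G.LG Fss.G in
/-- **theories with field reconstruction** -/
theorem finalV (Q : Theory D) (T : Ix → Ix → Fld D) (hT : Stress0 Q T) (A : (V → V) → D → D)
    (hA : ND.PCh Q T A) (hG : TfGen Q ∨ MfAll Q) (hF : Cd Q)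
    (hS : ∀ m n, ∃ F C, Scl Q (T m n) F C) (N : Set V → VonNeumannAlgebra (Completion D))
    (hN : LNm Q A N) (hU : L.UVac Q) (hR : RecV Q) :
    NoLog Q T ∧ ∃ S J, Q.IsStress S ∧ IsImpr Q T (improveJ S J) ∧
      (∀ Q' : Theory D, IsEnl Q Q' → L.CInv Q' id S J) ∧
      ∀ (Q' : Theory D') i G T' A', Sect Q Q' i → Gr Q' G → Stress0 Q' T' → Gnr Q' A' →
        ND.PCh Q' T' A' → (∀ m n, Xt i (T m n) (T' m n)) → NoLog Q' T' ∧
          ∃ S' J', Q'.IsStress S' ∧ (∀ m n, Xt i (S m n) (S' m n)) ∧ (∀ m, Xt i (J m) (J' m)) ∧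
            IsImpr Q' T' (improveJ S' J') ∧ L.CInv Q' G S' J' := by
  have hG' : TfGen (hull Q) := hG.elim StA.tfg (P352H.tfg hN.toRep)
  have hL := nolog Q T hT A hA hG' hF hS N hN hU
  have R := m1_rep hN.toRep
  choose F C hC c4 using id hL
  obtain ⟨h1, h4⟩ := fss R (cj R hN.der) hF hT hA hC c4
  set S : Ix → Ix → Fld D := fun m n => C m n (4, 0) with eS
  have s0 := str h1
  have s1 : (hl2 Q).IsStress S := ⟨h1.bose, s0.symm, s0.herm, s0.cov, s0.conserved, s0.charge⟩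
  have s2 : ND.PCh (hl2 Q) S A :=
    P352H.pch hN.toRep (fun m n => Q.bose_fld _ (h1.bose m n)) h4
  have s3 : TfGen (hl2 Q) := hG'
  have n0 := lnm hN
  have s4 : LNm (hl2 Q) A N := ⟨⟨n0.mul, n0.add, n0.der⟩, n0.fld, n0.mono, n0.cov, n0.loc⟩
  obtain ⟨J, j0, hc⟩ := curlV (hl2 Q) A S s2 s3 N s4 hU s1 fun φ m w =>
    hR φ ⟨m.lin, m.cont, m.cov⟩ fun μ f X X' hf hX => w μ f X X' hf (al2 hX)
  have hJ : IsVirial Q S J := ⟨j0.bose, j0.herm, j0.cov, j0.div⟩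
  have m : CA.MixC Q := CA.mix_of (hl2 Q) S s1 A s2 s3 N s4 hU
  have h6 : ∀ Q' : Theory D, IsEnl Q Q' → L.CInv Q' id S J := fun Q' hE => by
    have hT' := H746.isStress_enl hE h1
    have hJ' := H731.enl_virial hE hJ
    exact conf_id hT' hJ' (H246D.impr_of_curl hT' hJ' (hE.vac ▸ hc))
      ((CA.gm_of hN.toRep m).enl hE)
  have h8 := h6 Q ⟨rfl, rfl, fun _ h => h, fun _ h => h⟩
  refine ⟨hL, S, J, h1, Fss.impr hT hA h1 h4 h8.impr, h6,
    fun Q' i G T' A' h g hT' gn hP hx => ?_⟩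
  have R' := m1_gr g
  choose C' b1 b2 using fun m n => scl_ext h R R' (hT.bose m n) (hT'.bose m n) (hx m n) (hC m n)
  obtain ⟨a1, a2⟩ := fss R' (cj R' gn) (fun s hs => h.cov s _ 0 hs H496.isLor_one) hT' hP b1 c4
  obtain ⟨J', a4, a5⟩ := conf_gr h hN.toRep m g a1 (fun m n => b2 m n _) hJ hc
  exact ⟨fun m n => ⟨_, _, b1 m n, c4 m n⟩, _, J', a1, fun m n => b2 m n _, a4,
    Fss.impr hT' hP a1 a2 a5.impr, a5⟩

end

end Vale.Agent.P352R.Cw

namespace Vale.Agent.P352R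

open P352 GF P Br UniformSpace in
/-- **theories with field reconstruction**, in the republished definitions -/
theorem Br.finalV {D D' : Type*} [NormedAddCommGroup D] [InnerProductSpace ℂ D]
    [NormedAddCommGroup D'] [InnerProductSpace ℂ D'] (Q : Theory D) (T : Ix → Ix → Fld D)
    (hT : Stress0 Q T) (A : (V → V) → D → D) (hA : PCh Q T A) (hG : TfGen Q ∨ MfA Q)
    (hF : ∀ s, 0 < s → Cov Q s one 0) (hS : ∀ m n, ∃ F B, Scl Q (T m n) F B)
    (N : Set V → VonNeumannAlgebra (Completion D)) (hN : LNm Q A N) (hU : UVac Q) (hR : RecV Q) :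
    NoLog Q T ∧ ∃ S J, Q.IsStress S ∧ IsImpr Q T (improveJ S J) ∧
      (∀ Q' : Theory D, IsEnl Q Q' → CInv Q' id S J) ∧
      ∀ (Q' : Theory D') i G T' A', Sect Q Q' i → Gr Q' G → Stress0 Q' T' → Gnr Q' A' →
        PCh Q' T' A' → (∀ m n, Xt i (T m n) (T' m n)) → NoLog Q' T' ∧
          ∃ S' J', Q'.IsStress S' ∧ (∀ m n, Xt i (S m n) (S' m n)) ∧ (∀ m, Xt i (J m) (J' m)) ∧
            IsImpr Q' T' (improveJ S' J') ∧ CInv Q' G S' J' := by
  obtain ⟨a, S, J, b, c, d, e⟩ := Cw.finalV (D' := D') Q T (stress0.1 hT) A hA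
    (hG.imp_right mfa.1) hF hS N (lnm.1 hN) hU fun φ m w =>
      hR φ ⟨m.1, m.2, m.3⟩ fun μ => wloc.2 (w μ)
  refine ⟨a, S, J, b, impr.2 c, fun Q' h => cinv (d Q' (enl.1 h)),
    fun Q' i G T' A' h1 h2 h3 h4 h5 h7 => ?_⟩
  obtain ⟨a', S', J', b', c', d', e', f'⟩ :=
    e Q' i G T' A' (sect.1 h1) (gr.1 h2) (stress0.1 h3) h4 h5 h7
  exact ⟨a', S', J', b', c', d', impr.2 e', cinv f'⟩

end Vale.Agent.P352R
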