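import Vale.Agent.P352R.Sy
import Vale.Agent.P352R.W.Adj
import Vale.Agent.P352W.Fk.Hm

/-!
# P352R: the fields act on the domain (helper49)
-/

set_option autoImplicit false
set_option linter.all false

open MeasureTheory Filter Topology
open scoped ComplexConjugate Classical Nat

namespace Vale.Agent.P352R

open Vale.Agent.P352 Vale.Agent.P352.GF Vale.Agent.P352W.Cn Vale.Agent.P352W.Fk
open Vale.Agent.P352W.Fk.Ct (hs_ft ks_kT)
open Vale.Agent.P352W.Ft (test_bar)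

noncomputable section

variable {ψ χ : Wf} {f g : Fn} {n k : ℕ}

theorem wd_nice (h : Wd ψ) : Nice ψ := by
  induction h with
  | vc => exact nice_vc
  | zero => exact nice_zero
  | add _ _ a b => exact a.add b
  | smul c _ a => exact a.smul c
  | ph hf _ a => exact nice_ph (hs_ft hf) a
  | qq m n hf _ a => exact nice_qq (ks_kT m n hf) a
  | wk π μ hf _ a => exact nice_W _ (gs_kS (pl_tm π μ) hf) a

theorem isD (v : D) : IsD v.1 := by
  obtain ⟨v, hv⟩ := v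
  induction hv using Submodule.span_induction with
  | mem x hx => exact hx
  | zero => exact ⟨0, .zero, toL_zero⟩
  | add x y _ _ a b =>
    obtain ⟨ψ, h1, h2⟩ := a
    obtain ⟨χ, h3, h4⟩ := b
    exact ⟨ψ + χ, h1.add h3, (toL_add (wd_nice h1) (wd_nice h3)).trans (congrArg₂ _ h2 h4)⟩
  | smul c x _ a =>
    obtain ⟨ψ, h1, h2⟩ := a
    exact ⟨c • ψ, h1.smul c, (toL_smul c (wd_nice h1)).trans (congrArg _ h2)⟩

theorem wd_rep (v : D) : Wd (rep v) := by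
  rw [rep, dif_pos (isD v)]
  exact (isD v).choose_spec.1

theorem toL_rep (v : D) : toL (rep v) = v.1 := by
  rw [rep, dif_pos (isD v)]
  exact (isD v).choose_spec.2

theorem nice_rep (v : D) : Nice (rep v) := wd_nice (wd_rep v)

theorem mk_val (h : Wd ψ) : (mk ψ).1 = toL ψ := by rw [mk, dif_pos h]

theorem mk_rep (v : D) : mk (rep v) = v := Subtype.ext ((mk_val (wd_rep v)).trans (toL_rep v))

theorem ex_mk (v : D) : ∃ ψ, Wd ψ ∧ mk ψ = v := ⟨_, wd_rep v, mk_rep v⟩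

theorem inner_mk (a : Wd ψ) (b : Wd χ) : inner ℂ (mk ψ) (mk χ) = ip ψ χ := by
  rw [Submodule.coe_inner, mk_val a, mk_val b, inner_toL (wd_nice a) (wd_nice b)]

theorem mk_add (a : Wd ψ) (b : Wd χ) : mk (ψ + χ) = mk ψ + mk χ :=
  Subtype.ext (by
    rw [Submodule.coe_add, mk_val (a.add b), mk_val a, mk_val b, toL_add (wd_nice a) (wd_nice b)])

theorem mk_smul (c : ℂ) (a : Wd ψ) : mk (c • ψ) = c • mk ψ :=
  Subtype.ext (by rw [Submodule.coe_smul, mk_val (a.smul c), mk_val a, toL_smul c (wd_nice a)])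

theorem mk_zero : mk 0 = 0 := Subtype.ext ((mk_val .zero).trans toL_zero)

theorem wd_sub (a : Wd ψ) (b : Wd χ) : Wd (ψ - χ) := by
  have := a.add (b.smul (-1))
  rwa [neg_one_smul, ← sub_eq_add_neg] at this

theorem mk_sub (a : Wd ψ) (b : Wd χ) : mk (ψ - χ) = mk ψ - mk χ :=
  Subtype.ext (by
    rw [Submodule.coe_sub, mk_val (wd_sub a b), mk_val a, mk_val b,
      toL_sub (wd_nice a) (wd_nice b)])

theorem wd_sum {ι : Type*} (s : Finset ι) {u : ι → Wf} (a : ∀ i, Wd (u i)) :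
    Wd (∑ i ∈ s, u i) :=
  Finset.sum_induction u Wd (fun _ _ => Wd.add) Wd.zero fun i _ => a i

theorem mk_sum {ι : Type*} (s : Finset ι) {u : ι → Wf} (a : ∀ i, Wd (u i)) :
    mk (∑ i ∈ s, u i) = ∑ i ∈ s, mk (u i) := by
  induction s using Finset.induction_on with
  | empty => exact mk_zero
  | insert i s hi ih => simp only [Finset.sum_insert hi, mk_add (a i) (wd_sum s a), ih]

/-- operators with a formal adjoint descend to the domain -/
theorem op_mk {A B : Wf → Wf} (hA : ∀ ψ, Wd ψ → Wd (A ψ)) (hB : ∀ ψ, Wd ψ → Wd (B ψ))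
    (ad : ∀ ψ χ, Wd ψ → Wd χ → ip (A ψ) χ = ip ψ (B χ)) (a : Wd ψ) : op A (mk ψ) = mk (A ψ) := by
  refine ext_inner_right ℂ fun w => ?_
  obtain ⟨χ, b, rfl⟩ := ex_mk w
  have r := wd_rep (mk ψ)
  rw [op, inner_mk (hA _ r) b, inner_mk (hA _ a) b, ad _ _ r b, ad _ _ a b,
    ← inner_mk r (hB _ b), ← inner_mk a (hB _ b), mk_rep]

theorem ip_Ph (hf : IsTest f) (a : Wd ψ) (b : Wd χ) :
    ip (ph (ft f) ψ) χ = ip ψ (ph (ft (bar f)) χ) := by
  rw [ip_ph (hs_ft hf) (wd_nice a) (wd_nice b), Hm.ft_conj]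

theorem ip_Tm (m n : Ix) (hf : IsTest f) (a : Wd ψ) (b : Wd χ) :
    ip (qq (kT m n f) ψ) χ = ip ψ (qq (kT m n (bar f)) χ) := by
  rw [ip_qq (ks_kT m n hf) (wd_nice a) (wd_nice b), Hm.kT_conj]

theorem ip_Mo (π : Fin k → Fin n) (μ : Fin k → Ix) (hf : IsTest f) (a : Wd ψ) (b : Wd χ) :
    ip (W n (kS n (tm π μ) f) ψ) χ = ip ψ (W n (kS n (tm π μ) (bar f)) χ) := by
  rw [ip_W n (gs_kS (pl_tm π μ) hf) (wd_nice a) (wd_nice b), st_tm]

theorem Ph_mk (hf : IsTest f) (a : Wd ψ) : Ph f (mk ψ) = mk (ph (ft f) ψ) :=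
  op_mk (fun _ h => h.ph hf) (fun _ h => h.ph (test_bar hf)) (fun _ _ => ip_Ph hf) a

theorem Tm_mk (m n : Ix) (hf : IsTest f) (a : Wd ψ) : Tm m n f (mk ψ) = mk (qq (kT m n f) ψ) :=
  op_mk (fun _ h => h.qq m n hf) (fun _ h => h.qq m n (test_bar hf))
    (fun _ _ => ip_Tm m n hf) a

theorem Mo_mk (π : Fin k → Fin n) (μ : Fin k → Ix) (hf : IsTest f) (a : Wd ψ) :
    Mo π μ f (mk ψ) = mk (W n (kS n (tm π μ) f) ψ) :=
  op_mk (fun _ h => h.wk π μ hf) (fun _ h => h.wk π μ (test_bar hf))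
    (fun _ _ => ip_Mo π μ hf) a

theorem ph_val (hf : IsTest f) (v : D) : (Ph f v).1 = toL (ph (ft f) (rep v)) :=
  mk_val ((wd_rep v).ph hf)

theorem tm_val (m n : Ix) (hf : IsTest f) (v : D) : (Tm m n f v).1 = toL (qq (kT m n f) (rep v)) :=
  mk_val ((wd_rep v).qq m n hf)

theorem mo_val (π : Fin k → Fin n) (μ : Fin k → Ix) (hf : IsTest f) (v : D) :
    (Mo π μ f v).1 = toL (W n (kS n (tm π μ) f) (rep v)) :=
  mk_val ((wd_rep v).wk π μ hf)

theorem herm (B : Fld D) (f : Fn) (v w : D) (h : FP B) (hf : IsTest f) :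
    inner ℂ (B f v) w = inner ℂ v (B (bar f) w) := by
  obtain ⟨ψ, a, rfl⟩ := ex_mk v
  obtain ⟨χ, b, rfl⟩ := ex_mk w
  have hb := test_bar hf
  rcases h with rfl | ⟨m, n, rfl⟩ | ⟨n, k, π, μ, rfl⟩
  · rw [Ph_mk hf a, Ph_mk hb b, inner_mk (a.ph hf) b, inner_mk a (b.ph hb), ip_Ph hf a b]
  · rw [Tm_mk m n hf a, Tm_mk m n hb b, inner_mk (a.qq m n hf) b, inner_mk a (b.qq m n hb),
      ip_Tm m n hf a b]
  · rw [Mo_mk π μ hf a, Mo_mk π μ hb b, inner_mk (a.wk π μ hf) b, inner_mk a (b.wk π μ hb),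
      ip_Mo π μ hf a b]

theorem gen (S : Submodule ℂ D) (h0 : Ω ∈ S)
    (h : ∀ B f v, FP B → IsTest f → v ∈ S → B f v ∈ S) (v : D) : v ∈ S := by
  obtain ⟨ψ, a, rfl⟩ := ex_mk v
  induction a with
  | vc => exact h0
  | zero => rw [mk_zero]; exact S.zero_mem
  | add a b i j => rw [mk_add a b]; exact S.add_mem i j
  | smul c a i => rw [mk_smul c a]; exact S.smul_mem c i
  | ph hf a i => rw [← Ph_mk hf a]; exact h _ _ _ (.inl rfl) hf i
  | qq m n hf a i => rw [← Tm_mk m n hf a]; exact h _ _ _ (.inr (.inl ⟨m, n, rfl⟩)) hf i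
  | wk π μ hf a i =>
    rw [← Mo_mk π μ hf a]; exact h _ _ _ (.inr (.inr ⟨_, _, π, μ, rfl⟩)) hf i

theorem norm_vac : ‖Ω‖ = 1 := by
  have h : inner ℂ Ω Ω = 1 := by
    rw [Ω, inner_mk .vc .vc, Hm.ip_vc nice_vc, vc, if_pos rfl]
  have h2 : ‖Ω‖ ^ 2 = 1 := by
    have := (inner_self_eq_norm_sq (𝕜 := ℂ) Ω).symm
    rwa [h, RCLike.one_re] at this
  exact (pow_eq_one_iff_of_nonneg (norm_nonneg _) two_ne_zero).1 h2

end

end Vale.Agent.P352R
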