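import Vale.Agent.P352R.Df
import Vale.Agent.P352R.W.Lin
import Vale.Agent.P352R.W.Adj
import Vale.Agent.P352W.FinH
import Vale.Agent.P352W.Ch.Nc

/-!
# P352R: the free field, the stress tensor and the similitudes on the large domain (helper85)
-/

set_option autoImplicit false
set_option linter.all false

open MeasureTheory Filter Topology
open scoped Classical ComplexConjugate

noncomputable section

namespace Vale.Agent.P352R

open Vale.Agent.P352 Vale.Agent.P352.GF Vale.Agent.P352W Vale.Agent.P352W.Cn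
open Vale.Agent.P352W.Fk hiding Wd IsD D0 D rep mk op Ω Ph Tm UU
open Vale.Agent.P352.H246 (In)
open Vale.Agent.P352.H15 (IsSim)
open Vale.Agent.P352.ND (cur)

/-- the two facts on the words which are used -/
structure K2 : Prop where
  nice : ∀ {ψ}, Wd ψ → Nice ψ
  gm : ∀ {s L ψ} (a), 0 < s → IsLor L → Wd ψ → Wd (gm s L a ψ)

variable {ψ χ : Wf} {f g : Fn} {s : ℝ} {L : Ix → V} {a : V}

namespace K2

theorem mk_val (h : Wd ψ) : (P352R.mk ψ).1 = toL ψ := by rw [P352R.mk, dif_pos h]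

theorem wsub (h : Wd ψ) (h' : Wd χ) : Wd (ψ - χ) := by
  have := h.add (h'.smul (-1))
  rwa [neg_one_smul, ← sub_eq_add_neg] at this

theorem wsum {ι : Type*} (t : Finset ι) {u : ι → Wf} (h : ∀ i, Wd (u i)) : Wd (∑ i ∈ t, u i) :=
  Finset.sum_induction u Wd (fun _ _ => Wd.add) Wd.zero fun i _ => h i

theorem wle (h : Wd ψ) : ∃ n, Le n ψ := by
  induction h with
  | vc => exact ⟨0, fun σ hσ => if_neg fun e => by simp [e] at hσ⟩
  | zero => exact ⟨0, fun _ _ => rfl⟩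
  | add _ _ a b =>
    obtain ⟨n, a⟩ := a
    obtain ⟨m, b⟩ := b
    exact ⟨max n m, (a.mono (le_max_left _ _)).add (b.mono (le_max_right _ _))⟩
  | smul c _ a => exact a.imp fun _ a => a.smul c
  | ph _ _ a => exact let ⟨_, a⟩ := a; ⟨_, a.ph _⟩
  | qq _ _ _ _ a => exact let ⟨_, a⟩ := a; ⟨_, a.qq _⟩
  | wk _ _ _ _ a => exact let ⟨_, a⟩ := a; ⟨_, le_W _ _ a⟩

theorem symm (m n : Ix) (f : Fn) (v : D) (_ : IsTest f) : Tm m n f v = Tm n m f v := by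
  unfold Tm
  rw [Kr.kT_symm]

variable (k : K2)
include k

theorem isD (v : D) : IsD v.1 := by
  obtain ⟨v, h⟩ := v
  induction h using Submodule.span_induction with
  | mem x h => exact h
  | zero => exact ⟨0, .zero, toL_zero⟩
  | add x y _ _ a b =>
    obtain ⟨ψ, a, rfl⟩ := a
    obtain ⟨χ, b, rfl⟩ := b
    exact ⟨_, a.add b, toL_add (k.nice a) (k.nice b)⟩
  | smul c x _ a =>
    obtain ⟨ψ, a, rfl⟩ := a
    exact ⟨_, a.smul c, toL_smul c (k.nice a)⟩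

theorem rs (v : D) : Wd (rep v) ∧ toL (rep v) = v.1 := by
  rw [rep, dif_pos (k.isD v)]
  exact (k.isD v).choose_spec

theorem wr (v : D) : Wd (rep v) := (k.rs v).1

theorem mk_rep (v : D) : P352R.mk (rep v) = v := Subtype.ext ((mk_val (k.wr v)).trans (k.rs v).2)

theorem ex (v : D) : ∃ ψ, Wd ψ ∧ P352R.mk ψ = v := ⟨_, k.wr v, k.mk_rep v⟩

theorem inner_mk (a : Wd ψ) (b : Wd χ) : inner ℂ (P352R.mk ψ) (P352R.mk χ) = ip ψ χ := by
  rw [Submodule.coe_inner, mk_val a, mk_val b, inner_toL (k.nice a) (k.nice b)]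

theorem mk_add (a : Wd ψ) (b : Wd χ) : P352R.mk (ψ + χ) = P352R.mk ψ + P352R.mk χ :=
  Subtype.ext (by
    rw [Submodule.coe_add, mk_val (a.add b), mk_val a, mk_val b, toL_add (k.nice a) (k.nice b)])

theorem mk_smul (c : ℂ) (a : Wd ψ) : P352R.mk (c • ψ) = c • P352R.mk ψ :=
  Subtype.ext (by rw [Submodule.coe_smul, mk_val (a.smul c), mk_val a, toL_smul c (k.nice a)])

theorem mk_sub (a : Wd ψ) (b : Wd χ) : P352R.mk (ψ - χ) = P352R.mk ψ - P352R.mk χ := by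
  rw [eq_sub_iff_add_eq, ← k.mk_add (wsub a b) b, sub_add_cancel]

omit k in
theorem mk_zero : P352R.mk 0 = 0 := Subtype.ext ((mk_val .zero).trans toL_zero)

theorem mk_sum {ι : Type*} (t : Finset ι) {u : ι → Wf} (h : ∀ i, Wd (u i)) :
    P352R.mk (∑ i ∈ t, u i) = ∑ i ∈ t, P352R.mk (u i) := by
  induction t using Finset.induction_on with
  | empty => exact mk_zero
  | insert i t hi ih => simp only [Finset.sum_insert hi, k.mk_add (h i) (wsum t h), ih]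

/-- operators with a formal adjoint descend to the domain -/
theorem op_mk {A B : Wf → Wf} (hA : ∀ ψ, Wd ψ → Wd (A ψ)) (hB : ∀ ψ, Wd ψ → Wd (B ψ))
    (ad : ∀ ψ χ, Nice ψ → Nice χ → ip (A ψ) χ = ip ψ (B χ)) (a : Wd ψ) :
    op A (P352R.mk ψ) = P352R.mk (A ψ) := by
  refine ext_inner_right ℂ fun w => ?_
  obtain ⟨χ, b, rfl⟩ := k.ex w
  have r := k.wr (P352R.mk ψ)
  rw [op, k.inner_mk (hA _ r) b, k.inner_mk (hA _ a) b, ad _ _ (k.nice r) (k.nice b),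
    ad _ _ (k.nice a) (k.nice b), ← k.inner_mk r (hB _ b), ← k.inner_mk a (hB _ b), k.mk_rep]

theorem op_adj {A B : Wf → Wf} (hA : ∀ ψ, Wd ψ → Wd (A ψ)) (hB : ∀ ψ, Wd ψ → Wd (B ψ))
    (ad : ∀ ψ χ, Nice ψ → Nice χ → ip (A ψ) χ = ip ψ (B χ)) (v w : D) :
    inner ℂ (op A v) w = inner ℂ v (op B w) := by
  conv_lhs => rw [← k.mk_rep w]
  conv_rhs => rw [← k.mk_rep v]
  rw [op, op, k.inner_mk (hA _ (k.wr v)) (k.wr w), k.inner_mk (k.wr v) (hB _ (k.wr w)),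
    ad _ _ (k.nice (k.wr v)) (k.nice (k.wr w))]

omit k in
theorem ip_Ph (hf : IsTest f) (ψ χ : Wf) (a : Nice ψ) (b : Nice χ) :
    ip (ph (ft f) ψ) χ = ip ψ (ph (ft (bar f)) χ) := by
  rw [ip_ph (Kr.hs_ft hf) a b, Hm.ft_conj]

omit k in
theorem ip_Tm (m n : Ix) (hf : IsTest f) (ψ χ : Wf) (a : Nice ψ) (b : Nice χ) :
    ip (qq (kT m n f) ψ) χ = ip ψ (qq (kT m n (bar f)) χ) := by
  rw [ip_qq (Kr.ks_kT m n hf) a b, Hm.kT_conj]

theorem Ph_mk (hf : IsTest f) (a : Wd ψ) : Ph f (P352R.mk ψ) = P352R.mk (ph (ft f) ψ) :=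
  k.op_mk (fun _ h => h.ph hf) (fun _ h => h.ph (Ft.test_bar hf)) (ip_Ph hf) a

theorem Tm_mk (m n : Ix) (hf : IsTest f) (a : Wd ψ) :
    Tm m n f (P352R.mk ψ) = P352R.mk (qq (kT m n f) ψ) :=
  k.op_mk (fun _ h => h.qq m n hf) (fun _ h => h.qq m n (Ft.test_bar hf)) (ip_Tm m n hf) a

theorem herm_Ph (hf : IsTest f) (v w : D) : inner ℂ (Ph f v) w = inner ℂ v (Ph (bar f) w) :=
  k.op_adj (fun _ h => h.ph hf) (fun _ h => h.ph (Ft.test_bar hf)) (ip_Ph hf) v w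

theorem herm_Tm (m n : Ix) (hf : IsTest f) (v w : D) :
    inner ℂ (Tm m n f v) w = inner ℂ v (Tm m n (bar f) w) :=
  k.op_adj (fun _ h => h.qq m n hf) (fun _ h => h.qq m n (Ft.test_bar hf)) (ip_Tm m n hf) v w

theorem ph_val (hf : IsTest f) (v : D) : (Ph f v).1 = toL (ph (ft f) (rep v)) :=
  mk_val ((k.wr v).ph hf)

theorem tm_val (m n : Ix) (hf : IsTest f) (v : D) : (Tm m n f v).1 = toL (qq (kT m n f) (rep v)) :=
  mk_val ((k.wr v).qq m n hf)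

theorem cont_Ph (v : D) : Continuous fun g => Ph (ev g) v := continuous_induced_rng.2
  ((Ct.cont_ph (k.nice (k.wr v))).congr fun g => (k.ph_val ⟨g, rfl⟩ v).symm)

theorem cont_Tm (m n : Ix) (v : D) : Continuous fun g => Tm m n (ev g) v := continuous_induced_rng.2
  ((Ct.cont_qq m n (k.nice (k.wr v))).congr fun g => (k.tm_val m n ⟨g, rfl⟩ v).symm)

theorem lin_Ph (hf : IsTest f) (hg : IsTest g) (c : ℂ) (v : D) :
    Ph (fun x => f x + c * g x) v = Ph f v + c • Ph g v := by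
  have n := k.nice (k.wr v)
  have a := Kr.hs_ft hf
  have b := Kr.hs_ft hg
  refine Subtype.ext ?_
  rw [Submodule.coe_add, Submodule.coe_smul, k.ph_val (Ft.test_add hf (Ft.test_cmul c hg)),
    k.ph_val hf, k.ph_val hg, ← toL_smul c (nice_ph b n), ← mul_ph,
    ← toL_add (nice_ph a n) (nice_ph (b.mul c) n), ← add_ph a (b.mul c) n,
    funext (Ft.ft_lin hf hg c)]

theorem lin_Tm (m n : Ix) (hf : IsTest f) (hg : IsTest g) (c : ℂ) (v : D) :
    Tm m n (fun x => f x + c * g x) v = Tm m n f v + c • Tm m n g v := by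
  have r := k.nice (k.wr v)
  have a := Kr.ks_kT m n hf
  have b := Kr.ks_kT m n hg
  refine Subtype.ext ?_
  rw [Submodule.coe_add, Submodule.coe_smul, k.tm_val m n (Ft.test_add hf (Ft.test_cmul c hg)),
    k.tm_val m n hf, k.tm_val m n hg, ← toL_smul c (nice_qq b r), ← mul_qq,
    ← toL_add (nice_qq a r) (nice_qq (b.mul c) r), ← add_qq a (b.mul c) r]
  refine congrArg (fun κ => toL (qq κ (rep v))) (funext fun p => funext fun q => ?_)
  rw [kT, kT, kT, Ft.ft_lin hf hg c]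
  ring

theorem loc0 (f g : Fn) (v : D) (hf : IsTest f) (hg : IsTest g) (h : Sep f g) :
    Ph f (Ph g v) = Ph g (Ph f v) := by
  obtain ⟨ψ, w, rfl⟩ := k.ex v
  have e := ph_comm (Kr.hs_ft hf) (Kr.hs_ft hg) (k.nice w)
  rw [pj' hf hg h, sub_self, zero_smul, sub_eq_zero] at e
  rw [k.Ph_mk hg w, k.Ph_mk hf w, k.Ph_mk hf (w.ph hg), k.Ph_mk hg (w.ph hf), e]

theorem norm_vac : ‖Ω‖ = 1 := by
  have h : inner ℂ Ω Ω = 1 := by
    rw [Ω, k.inner_mk .vc .vc, Hm.ip_vc nice_vc, vc, if_pos rfl]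
  have h2 : ‖Ω‖ ^ 2 = 1 := by
    have := (inner_self_eq_norm_sq (𝕜 := ℂ) Ω).symm
    rwa [h, RCLike.one_re] at this
  exact (pow_eq_one_iff_of_nonneg (norm_nonneg _) two_ne_zero).1 h2

theorem fil : ∃ P : ℕ → D → Prop, (∀ v, ∃ n, P n v) ∧ ∀ g, IsTest g →
    (∀ n v, P n v → P (n + 1) (Ph g v)) ∧
      ∃ C : ℝ, ∀ n v, P n v → ‖Ph g v‖ ≤ C * √((n : ℝ) + 1) * ‖v‖ := by
  have e {ψ : Wf} (w : Wd ψ) : ‖P352R.mk ψ‖ = ‖toL ψ‖ := by
    rw [← mk_val w]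
    rfl
  refine ⟨fun n v => ∃ ψ, Wd ψ ∧ Le n ψ ∧ P352R.mk ψ = v, fun v => ?_, fun g hg => ⟨?_, ?_⟩⟩
  · obtain ⟨ψ, w, rfl⟩ := k.ex v
    exact (wle w).imp fun n l => ⟨ψ, w, l, rfl⟩
  · rintro n _ ⟨ψ, w, l, rfl⟩
    exact ⟨_, w.ph hg, l.ph _, (k.Ph_mk hg w).symm⟩
  · refine (ph_bd (Kr.hs_ft hg)).imp fun C b => ?_
    rintro n _ ⟨ψ, w, l, rfl⟩
    rw [k.Ph_mk hg w, e w, e (w.ph hg)]
    exact b n ψ (k.nice w).1 (k.nice w).memLp l

theorem U_inner (s : ℝ) (L : Ix → V) (a : V) (v w : D) (hs : 0 < s) (hL : IsLor L) :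
    inner ℂ (UU s L a v) (UU s L a w) = inner ℂ v w := by
  rw [UU, op, op, k.inner_mk (k.gm a hs hL (k.wr v)) (k.gm a hs hL (k.wr w)),
    ip_gm hs hL (k.nice (k.wr v)) (k.nice (k.wr w)), ← k.inner_mk (k.wr v) (k.wr w), k.mk_rep,
    k.mk_rep]

theorem UU_mk (hs : 0 < s) (hL : IsLor L) (h : Wd ψ) :
    UU s L a (P352R.mk ψ) = P352R.mk (Fk.gm s L a ψ) := by
  have e : ∀ x y, Wd x → Wd y → inner ℂ (P352R.mk (Fk.gm s L a x)) (P352R.mk (Fk.gm s L a y)) =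
      inner ℂ (P352R.mk x) (P352R.mk y) := fun x y hx hy => by
    rw [k.inner_mk (k.gm a hs hL hx) (k.gm a hs hL hy), ip_gm hs hL (k.nice hx) (k.nice hy),
      k.inner_mk hx hy]
  have r := k.wr (P352R.mk ψ)
  rw [← sub_eq_zero, ← inner_self_eq_zero (𝕜 := ℂ), UU, op, inner_sub_left, inner_sub_right,
    inner_sub_right, e _ _ r r, e _ _ r h, e _ _ h r, e _ _ h h, k.mk_rep]
  simp

theorem U_vac (s : ℝ) (L : Ix → V) (a : V) (hs : 0 < s) (hL : IsLor L) : UU s L a Ω = Ω := by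
  rw [Ω, k.UU_mk hs hL Wd.vc, Cov.gm_vc]

theorem U_mul (s : ℝ) (L : Ix → V) (a : V) (s' : ℝ) (L' : Ix → V) (a' : V) (v : D)
    (hs : 0 < s) (hs' : 0 < s') (hL : IsLor L) (hL' : IsLor L') : UU s L a (UU s' L' a' v) =
      UU (s * s') (fun m => sim 1 L 0 (L' m)) (sim s L a a') v := by
  show UU s L a (P352R.mk (Fk.gm s' L' a' (rep v))) = P352R.mk _
  rw [k.UU_mk hs hL (k.gm a' hs' hL' (k.wr v)), U.gm_gm]

theorem cov_phi (s : ℝ) (L : Ix → V) (a : V) (f : Fn) (v : D) (hs : 0 < s)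
    (hL : IsLor L) (hf : IsTest f) : Ph f (UU s L a v) =
      ((s ^ 3 : ℝ) : ℂ) • UU s L a (Ph (fun x => f (sim s L a x)) v) := by
  have h1 := k.wr v
  have h2 := Wd.ph (Cov.test_sim hs hL a hf) h1
  show Ph f (P352R.mk (Fk.gm s L a (rep v))) = _ • UU s L a (P352R.mk (ph _ (rep v)))
  rw [k.Ph_mk hf (k.gm a hs hL h1), k.UU_mk hs hL h2, Cov.cov_ph hs hL,
    k.mk_smul _ (k.gm a hs hL h2)]

theorem cov_T (m n : Ix) (s : ℝ) (L : Ix → V) (a : V) (f : Fn) (v : D)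
    (hs : 0 < s) (hL : IsLor L) (hf : IsTest f) : Tm m n f (UU s L a v) =
      ∑ k, ∑ l, (L k m * L l n : ℂ) • UU s L a (Tm k l (fun x => f (sim s L a x)) v) := by
  have h1 := k.wr v
  have h2 := fun i l => Wd.qq i l (Cov.test_sim hs hL a hf) h1
  have h3 := fun i l => (k.gm a hs hL (h2 i l)).smul (L i m * L l n : ℂ)
  show Tm m n f (P352R.mk (Fk.gm s L a (rep v))) = _
  rw [k.Tm_mk _ _ hf (k.gm a hs hL h1), Cov.cov_T hs hL m n hf (k.nice h1),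
    k.mk_sum _ fun i => wsum _ (h3 i)]
  refine Finset.sum_congr rfl fun i _ => ?_
  rw [k.mk_sum _ (h3 i)]
  refine Finset.sum_congr rfl fun l _ => ?_
  rw [k.mk_smul _ (k.gm a hs hL (h2 i l)), ← k.UU_mk hs hL (h2 i l)]
  rfl

theorem spec (v : D) : ∃ ν : Measure V, IsFiniteMeasure ν ∧ (∀ᵐ p ∂ν, 0 ≤ p o ∧ 0 ≤ GF.mdot p p) ∧
    ν.real {p | p o = 0} ≤ ‖inner ℂ Ω v‖ ^ 2 ∧
    ∀ a, inner ℂ v (UU 1 one a v) = ∫ p, Complex.exp (Complex.I * GF.mdot p a) ∂ν := by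
  obtain ⟨ψ, w, rfl⟩ := k.ex v
  obtain ⟨ν, h1, h2, h3, h4⟩ := spec_fn (k.nice w)
  refine ⟨ν, h1, h2, h3.le.trans_eq ?_, fun a => ?_⟩
  · rw [Ω, k.inner_mk .vc w, Hm.ip_vc (k.nice w)]
  · rw [k.UU_mk one_pos P352.isLor_one w, k.inner_mk w (k.gm a one_pos P352.isLor_one w), h4]

theorem conserved (n : Ix) (f : Fn) (v : D) (hf : IsTest f) : ∑ m, Tm m n (pd m f) v = 0 := by
  have t := fun m => Ft.test_pd hf m
  simp only [Tm, op]
  rw [← k.mk_sum _ fun m => (k.wr v).qq m n (t m),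
    ← Kr.Nz.sum_qq (fun m => Kr.ks_kT m n (t m)) (k.nice (k.wr v)), Kr.qq_cons n hf, mk_zero]

theorem nz : ∃ f, IsTest f ∧ tr Tm f Ω ≠ 0 := by
  obtain ⟨f, hf, e⟩ := Kr.nz0
  refine ⟨f, hf, fun h0 => e ?_⟩
  have w := fun m => (Wd.qq m m hf Wd.vc).smul (eta m : ℂ)
  rw [← mk_val (wsum _ w), k.mk_sum _ w]
  simp only [tr, Ω, fun m => k.Tm_mk m m hf Wd.vc, fun m => (k.mk_smul (eta m : ℂ)
    (Wd.qq m m hf Wd.vc)).symm] at h0
  rw [h0]
  rfl

theorem chg (F : ℝ → Fn) (X : V → V) (r : ℝ) (hF : IsCutoff F) (hX : IsSim 0 X) :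
    ∃ R₀ : ℝ, ∀ R ≥ R₀, ∀ g v, In (Metric.ball 0 r) g →
      cur Tm X (F R) (Ph g v) - Ph g (cur Tm X (F R) v) =
        Complex.I • Ph (fun x => ∑ n, (X x n : ℂ) * pd n g x) v := by
  obtain ⟨R₀, h⟩ := Ch.Br.ker Ch.Nc.noe hF hX r
  refine ⟨max R₀ 1, fun R hR g v hg => ?_⟩
  obtain ⟨ψ, w, rfl⟩ := k.ex v
  have tF : IsTest (F R) := by
    obtain ⟨a, c, -, -, -, -, j⟩ := hF
    exact (j R (one_pos.trans_le (le_of_max_le_right hR))).1
  have tG (n : Ix) := Gl.test_cur hX n tF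
  have hs := Kr.hs_ft hg.1
  have e := h R (le_of_max_le_left hR) g hg.1 hs (hg.2.2.trans Metric.ball_subset_closedBall) tG
  have w1 := w.ph hg.1
  have tV := Chg.test_vf hX hg.1
  simp only [cur]
  rw [k.Ph_mk hg.1 w, k.Ph_mk tV w]
  simp only [fun n => k.Tm_mk o n (tG n) w, fun n => k.Tm_mk o n (tG n) w1]
  have a1 (n : Ix) := Wd.qq o n (tG n) w
  have a2 (n : Ix) := Wd.qq o n (tG n) w1
  rw [← k.mk_sum _ a1, ← k.mk_sum _ a2, k.Ph_mk hg.1 (wsum _ a1),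
    ← k.mk_sub (wsum _ a2) ((wsum _ a1).ph hg.1), ← k.mk_smul _ (w.ph tV),
    Chg.fn _ (fun n => Kr.ks_kT o n (tG n)) hs (k.nice w), ← mul_ph]
  refine congrArg P352R.mk (ph_congr (fun p hp => e p hp.1) (fun p hp => e (-p) ?_) ψ)
  rw [P352X.md_neg, P352X.md_neg_l, neg_neg]
  exact hp.1

open Ap in
theorem wk : Wk ft Ker.wt D0.subtype Ph KS (fun κ v => toL (qq κ (rep v)))
    fun g h => ∫ q, ft g (-q) * ft h q ∂Om :=
  have H := (hy_of ph_mk fun _ _ _ => ph_ph).wk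
  { iso := fun _ => rfl
    fb := H.fb
    tb := H.tb
    cb := H.cb
    anti := H.anti
    symm := H.symm
    add := fun κ h κ' h' v => by
      have n := k.nice (k.wr v)
      exact (congrArg Fk.toL (add_qq h h' n)).trans (toL_add (nice_qq h n) (nice_qq h' n))
    smul := fun c κ h v =>
      (congrArg Fk.toL (mul_qq c κ _)).trans (toL_smul c (nice_qq h (k.nice (k.wr v))))
    ten := H.ten
    mul := fun g h v hg hh => by
      have w := k.wr v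
      have n := k.nice w
      have e : Ph h v = P352R.mk (ph (ft h) (rep v)) := rfl
      rw [e, k.Ph_mk hg (w.ph hh), Submodule.subtype_apply, mk_val ((w.ph hh).ph hg),
        ph_ph (hs_ft hg) (hs_ft hh) n, toL_add (nice_qq (ks_ten (hs_ft hg) (hs_ft hh)) n)
          (n.smul _), toL_smul _ n, (k.rs v).2, Submodule.subtype_apply]
    bd := fun v => by
      have n := k.nice (k.wr v)
      obtain ⟨K, -, hK⟩ := norm_toL
      obtain ⟨C, hC⟩ := n.2 (2 * 2 + 10)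
      exact ⟨_, K * ((1 + 2 * KK + KK ^ 2) * 2 ^ (2 * 2 + 10) * C), fun κ h ε hε b =>
        (hK _ _ (nice_qq h n).1 (bd_qq' (N := 2) (kb_wt hε b) hC)).trans_eq (by ring)⟩ }

open Ap in
theorem ps_Tm (m n : Ix) : PS Ph (Tm m n) :=
  k.wk.ps (κ := kT m n) (fun _ => ks_kT m n) (fun _ v hf => k.tm_val m n hf v)
    (fun f _ => kT_bar m n f) fun _ _ hO hf => ap_kT m n hO hf

/-- **the list `Fr`, from the facts on the Wick monomials** -/
theorem fr (gs : ∀ {n j : ℕ} (π : Fin j → Fin n) (μ : Fin j → Ix) f, IsTest f →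
      Gs (kS n (tm π μ) f) ∧ st (kS n (tm π μ) f) = kS n (tm π μ) (bar f))
    (co : ∀ {n j : ℕ} (π : Fin j → Fin n) (μ : Fin j → Ix) ψ, Nice ψ →
      Continuous fun g => Fk.toL (W n (kS n (tm π μ) (ev g)) ψ))
    (ps : ∀ {n j : ℕ} (π : Fin j → Fin n) (μ : Fin j → Ix), PS Ph (Mo π μ))
    (cv : ∀ {n j : ℕ} (π : Fin j → Fin n) (μ : Fin j → Ix) s L a f ψ, 0 < s → IsLor L →
      IsTest f → Nice ψ → W n (kS n (tm π μ) f) (Fk.gm s L a ψ) = ∑ ν : Fin j → Ix,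
        ((s ^ (4 - ((n + j : ℕ) : ℝ)) * ∏ i, L (ν i) (μ i) : ℝ) : ℂ) •
          Fk.gm s L a (W n (kS n (tm π ν) fun x => f (sim s L a x)) ψ)) :
    Fr Ω Ph Tm UU FP := by
  have ad {n j : ℕ} (π : Fin j → Fin n) (μ : Fin j → Ix) {f} (hf : IsTest f) (ψ χ) (a : Nice ψ)
      (b : Nice χ) : ip (W n (kS n (tm π μ) f) ψ) χ = ip ψ (W n (kS n (tm π μ) (bar f)) χ) := by
    rw [ip_W n (gs π μ f hf).1 a b, (gs π μ f hf).2]
  have mo {n j : ℕ} (π : Fin j → Fin n) (μ : Fin j → Ix) {f ψ} (hf : IsTest f) (a : Wd ψ) :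
      Mo π μ f (P352R.mk ψ) = P352R.mk (W n (kS n (tm π μ) f) ψ) :=
    k.op_mk (fun _ h => h.wk π μ hf) (fun _ h => h.wk π μ (Ft.test_bar hf)) (ad π μ hf) a
  refine ⟨.inl rfl, fun m n => .inr (.inl ⟨m, n, rfl⟩), k.norm_vac, fun S h0 h v => ?_, ?_, ?_, ?_,
    ?_, k.loc0, k.fil, k.U_inner, k.U_vac, k.U_mul, k.cov_phi, k.cov_T, ?_, symm, k.conserved,
    k.spec, k.chg, k.nz⟩
  · obtain ⟨ψ, a, rfl⟩ := k.ex v
    induction a with
    | vc => exact h0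
    | zero => rw [mk_zero]; exact S.zero_mem
    | add a b i j => rw [k.mk_add a b]; exact S.add_mem i j
    | smul c a i => rw [k.mk_smul c a]; exact S.smul_mem c i
    | ph hf a i => rw [← k.Ph_mk hf a]; exact h _ _ _ (.inl rfl) hf i
    | qq m n hf a i => rw [← k.Tm_mk m n hf a]; exact h _ _ _ (.inr (.inl ⟨m, n, rfl⟩)) hf i
    | wk π μ hf a i => rw [← mo π μ hf a]; exact h _ _ _ (.inr (.inr ⟨_, _, π, μ, rfl⟩)) hf i
  · rintro B f g c v (rfl | ⟨m, n, rfl⟩ | ⟨n, j, π, μ, rfl⟩) hf hg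
    · exact k.lin_Ph hf hg c v
    · exact k.lin_Tm m n hf hg c v
    · obtain ⟨ψ, a, rfl⟩ := k.ex v
      have e : kS n (tm π μ) (fun x => f x + c * g x) = kS n (tm π μ) f + c • kS n (tm π μ) g :=
        funext fun σ => by
          simp only [kS, Pi.add_apply, Pi.smul_apply, smul_eq_mul, Ft.ft_lin hf hg c]
          ring
      rw [mo π μ (Ft.test_add hf (Ft.test_cmul c hg)) a, mo π μ hf a, mo π μ hg a, e,
        W_add n (gs π μ f hf).1 ((gs π μ g hg).1.smul c) (k.nice a), W_smul,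
        k.mk_add (a.wk π μ hf) ((a.wk π μ hg).smul c), k.mk_smul c (a.wk π μ hg)]
  · rintro B f v w (rfl | ⟨m, n, rfl⟩ | ⟨n, j, π, μ, rfl⟩) hf
    · exact k.herm_Ph hf v w
    · exact k.herm_Tm m n hf v w
    · exact k.op_adj (fun _ h => h.wk π μ hf) (fun _ h => h.wk π μ (Ft.test_bar hf)) (ad π μ hf) v w
  · rintro B v (rfl | ⟨m, n, rfl⟩ | ⟨n, j, π, μ, rfl⟩)
    · exact k.cont_Ph v
    · exact k.cont_Tm m n v
    · exact continuous_induced_rng.2 ((co π μ _ (k.nice (k.wr v))).congr fun g =>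
        (mk_val ((k.wr v).wk π μ ⟨g, rfl⟩)).symm)
  · rintro B (rfl | ⟨m, n, rfl⟩ | ⟨n, j, π, μ, rfl⟩)
    · exact PS.self _
    · exact k.ps_Tm m n
    · exact ps π μ
  · rintro B (h | h | ⟨n, j, π, μ, rfl⟩)
    · exact .inl h
    · exact .inr (.inl h)
    refine .inr (.inr ⟨j, (n + j : ℕ), Mo π, μ, rfl, fun ν => .inr (.inr ⟨n, j, π, ν, rfl⟩),
      fun μ s L a f v hs hL hf => ?_⟩)
    obtain ⟨ψ, w, rfl⟩ := k.ex v
    have t := Cov.test_sim hs hL a hf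
    have h2 := fun ν => k.gm a hs hL (w.wk π ν t)
    rw [k.UU_mk hs hL w, mo π μ hf (k.gm a hs hL w), cv π μ s L a f ψ hs hL hf (k.nice w),
      k.mk_sum _ fun ν => (h2 ν).smul _]
    refine Finset.sum_congr rfl fun ν _ => ?_
    rw [k.mk_smul _ (h2 ν), mo π ν t w, k.UU_mk hs hL (w.wk π ν t)]

end K2

end Vale.Agent.P352R
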