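import Vale.Agent.P352R.Df
import Vale.Agent.P352W.Gl.Top
import Vale.Agent.P352H.Tfg
import Vale.Agent.P352X.CL.Pub

/-!
# P352R: all hypotheses, from a list of properties of a family of tensor fields (helper85)
-/

set_option autoImplicit false
set_option linter.all false

open MeasureTheory Filter Topology

noncomputable section

namespace Vale.Agent.P352R

open P352 GF H246 H15 BW P352X P352W
open P352.ND (cur PCh)
open P352L.StA (hull sp_of)
open UniformSpace (Completion)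

variable {E : Type*} [NormedAddCommGroup E] [InnerProductSpace ℂ E]

variable {Ω : E} {φ : Fld E} {T : Ix → Ix → Fld E} {U : ℝ → (Ix → V) → V → E → E}
  {P : Fld E → Prop}

theorem Gl.one_sum {k : ℕ} (μ : Fin k → Ix) (c : ℝ) (x : (Fin k → Ix) → E) :
    ∑ ν, ((c * ∏ i, GF.one (ν i) (μ i) : ℝ) : ℂ) • x ν = (c : ℂ) • x μ := by
  rw [Finset.sum_eq_single μ]
  · simp [GF.one, bas]
  · intro ν _ h
    obtain ⟨i, hi⟩ := Function.ne_iff.1 h
    rw [Finset.prod_eq_zero (Finset.mem_univ i) (by simp [GF.one, bas, Ne.symm hi])]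
    simp
  · simp

namespace Fr

variable (h : Fr Ω φ T U P)

include h in
theorem raw : Raw φ P := ⟨h.pφ, h.herm, h.cont, h.ps⟩

include h in
theorem ten' (B : Fld E) (hB : P B) : ∃ (k : ℕ) (d : ℝ) (Φ : (Fin k → Ix) → Fld E) (μ : Fin k → Ix),
    Ten U d Φ ∧ (∀ ν, P (Φ ν)) ∧ Φ μ = B := by
  rcases h.ten B hB with rfl | ⟨m, n, rfl⟩ | ⟨k, d, Φ, μ, rfl, a, b⟩
  · refine ⟨0, 1, fun _ => B, default, fun μ s L a f v hs hL hf => ?_, fun _ => hB, rfl⟩
    have e : s ^ ((4 : ℝ) - 1) = s ^ 3 := by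
      rw [show (4 : ℝ) - 1 = (3 : ℕ) by norm_num, Real.rpow_natCast]
    simpa [e] using h.cov_phi s L a f v hs hL hf
  · refine ⟨2, 4, fun μ => T (μ 0) (μ 1), ![m, n], fun μ s L a f v hs hL hf => ?_,
      fun _ => h.pT _ _, rfl⟩
    rw [← (piFinTwoEquiv fun _ => Ix).symm.sum_comp, Fintype.sum_prod_type]
    simpa using h.cov_T (μ 0) (μ 1) s L a f v hs hL hf
  · exact ⟨k, d, Φ, μ, b, a, rfl⟩

include h in
theorem dil {B : Fld E} (hB : P B) : ∃ d : ℝ, ∀ s a f v, 0 < s → IsTest f → B f (U s GF.one a v) =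
    ((s ^ (4 - d) : ℝ) : ℂ) • U s GF.one a (B (fun x => f (sim s GF.one a x)) v) := by
  obtain ⟨k, d, Φ, μ, t, -, rfl⟩ := h.ten' B hB
  exact ⟨d, fun s a f v hs hf => (t μ s _ a f v hs isLor_one hf).trans (Gl.one_sum μ _ _)⟩

/-- the theory of the generators -/
def th : Theory E where
  vac := Ω
  fld := P
  bose := P
  U := U
  norm_vac := h.norm_vac
  cyclic := fun S hS hA => by
    have e : (S : Set E) = Set.univ := Set.eq_univ_of_forall (h.gen S hS hA)
    rw [e]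
    exact dense_univ
  lin := h.lin
  cont := h.cont
  adj := fun B hB => ⟨B, hB, fun f v w hf => h.herm B f v w hB hf⟩
  bose_fld := fun _ hB => hB
  loc := loc_of h.raw fun f g v hf hg s => h.loc0 f g v hf.1 hg.1 s
  U_inner := h.U_inner
  U_vac := h.U_vac
  transl := fun B a f v hB hf => by
    obtain ⟨d, e⟩ := h.dil hB
    rw [e 1 a f v one_pos hf]
    simp
  spectrum := fun v => by
    obtain ⟨ν, a, b, -, c⟩ := h.spec v
    exact ⟨ν, a, b, c⟩

theorem scalar : h.th.IsScalar φ 1 := by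
  refine ⟨h.pφ, fun f v w hf => h.herm φ f v w h.pφ hf, fun s L a f v hs hL hf => ?_⟩
  have e : s ^ ((4 : ℝ) - 1) = s ^ 3 := by
    rw [show (4 : ℝ) - 1 = (3 : ℕ) by norm_num, Real.rpow_natCast]
  rw [e]
  exact h.cov_phi s L a f v hs hL hf

open Rp in
theorem rep : ∃ A, Rep h.th A := by
  refine rep_of h.th h.U_mul ?_
  let S : Submodule ℂ E :=
    { carrier := {v | Gd h.th v}
      add_mem' := fun hv hw => Gd.add hv hw
      zero_mem' := gd_inv fun s L a hs hL => by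
        obtain ⟨u, hu⟩ := U_lin (Q := h.th) hs hL a
        rw [hu, map_zero]
      smul_mem' := fun c _ hv => Gd.smul hv c }
  refine h.gen S (gd_inv h.U_vac) fun B f v hB hf hv => ?_
  obtain ⟨k, d, Φ, μ, t, p, rfl⟩ := h.ten' B hB
  refine Gd.fld (Q := h.th) p (fun s L ν => s ^ (4 - d) * ∏ i, L (ν i) (μ i))
    (fun X ν => rX X * (4 - d) * ∏ i, GF.one (ν i) (μ i) +
      ∑ i, (∏ j ∈ Finset.univ.erase i, GF.one (ν j) (μ j)) * wX X (ν i) (μ i))
    (fun s L a X ν K => ?_) (fun X X' t ν => ?_) (t μ) hf hv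
  · have h1 := K.1.ds.rpow_const (p := 4 - d) (Or.inl (K.1.sp 0).ne')
    have h2 := h1.fun_mul (HasDerivAt.fun_finset_prod (u := Finset.univ) fun i _ =>
      K.1.dL (ν i) (μ i))
    simpa only [K.1.s0, K.1.L0, Real.one_rpow, mul_one, one_mul, smul_eq_mul] using h2
  · simp only [rX_add, wX_add, mul_add, Finset.sum_add_distrib, Finset.mul_sum, mul_left_comm _ t]
    ring

theorem ch {A : (V → V) → E → E} (hA : Rep h.th A) (F : ℝ → Fn) (X : V → V) (ρ : ℝ)
    (hF : IsCutoff F) (hX : IsSim 0 X) : ∀ᶠ r in atTop, ∀ g v, In (Metric.ball 0 ρ) g →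
      cur T X (F r) (φ g v) - φ g (cur T X (F r) v) = A X (φ g v) - φ g (A X v) := by
  obtain ⟨R, hR⟩ := h.chg F X ρ hF hX
  filter_upwards [eventually_ge_atTop R] with r hr g v hg
  rw [hR r hr g v hg, Rp.A_sc hA h.scalar hX hg.1 v]
  simp only [mul_zero, Complex.ofReal_zero, zero_smul, zero_add, add_sub_cancel_left]
  rfl

variable {A : (V → V) → E → E}

theorem pch (hA : Rep h.th A) : PCh h.th T A := pch_of h.raw (fun _ hB => hB) h.pT hA (h.ch hA)

theorem stress (hA : Rep h.th A) : h.th.IsStress T where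
  bose := h.pT
  symm := h.symm
  herm m n f v w hf := h.herm _ f v w (h.pT m n) hf
  cov := h.cov_T
  conserved := h.conserved
  charge F n B f v w hF hB hf c := Tp.charge hA h.pT (h.pch hA) n v w hF hB hf c

theorem tf : TfGen h.th := fun S hS k => h.th.cyclic S hS fun B f v hB hf hv => by
  obtain ⟨n, d, Φ, μ, t, p, rfl⟩ := h.ten' B hB
  refine k n Φ μ f v ⟨p, fun μ L g u hL hg => ?_⟩ hf hv
  have := t μ 1 L 0 g u one_pos hL hg
  simp only [Real.one_rpow, one_mul] at this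
  exact this

theorem fsl : FSL h.th := fun B hB => by
  obtain ⟨d, e⟩ := h.dil hB
  refine ⟨{((d : ℂ), 0)}, fun _ => B, fun _ => ⟨hB, id⟩, fun s f v hs hf => ?_⟩
  rw [Finset.sum_singleton, pow_zero, mul_one]
  refine (e s 0 f v hs hf).trans ?_
  rw [Complex.ofReal_cpow hs.le]
  push_cast
  rfl

theorem uvac : L.UVac h.th := Tp.uv fun v hv => by
  obtain ⟨ν, a, -, b, c⟩ := h.spec v
  refine ⟨ν, a, (measureReal_eq_zero_iff (measure_ne_top _ _)).1
    (le_antisymm ?_ measureReal_nonneg), c⟩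
  rwa [show inner ℂ Ω v = 0 from hv, norm_zero, zero_pow two_ne_zero] at b

theorem perp (hA : Rep h.th A) : ∃ v, v ≠ 0 ∧ inner ℂ Ω v = 0 := by
  obtain ⟨f, hf, n⟩ := h.nz
  refine ⟨_, n, ?_⟩
  rw [tr, inner_sum]
  refine Finset.sum_eq_zero fun m _ => ?_
  rw [inner_smul_right]
  exact mul_eq_zero_of_right _ (Grp.perp (h.stress hA) m m hf)

include h in
/-- the field does not annihilate the vacuum -/
theorem nzp : ∃ f, IsTest f ∧ φ f Ω ≠ 0 := by
  by_contra! z
  obtain ⟨A, hA⟩ := h.rep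
  obtain ⟨f, hf, n⟩ := h.nz
  have a (v w : E) : inner ℂ (inner ℂ Ω v • Ω) w = inner ℂ v (inner ℂ Ω w • Ω) := by
    rw [inner_smul_left, inner_smul_right, inner_conj_symm, mul_comm]
  refine n (Finset.sum_eq_zero fun m _ => smul_eq_zero_of_right _ ?_)
  have := h.raw.ext (h.pT m m) hf a (fun g v hg => h.raw.cm (h.pT m m) isOpen_univ
    ⟨hg.1, hg.2.1, Set.subset_univ _⟩ a (fun g v hg => by
      rw [(Rp.aj_fld (Q := h.th) h.pφ hg.1).smul, z g hg.1, ← inner_conj_symm Ω (φ g v),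
        h.herm φ g v Ω h.pφ hg.1, z _ (Gl.test_bar hg.1)]
      simp) v) Ω
  rw [show inner ℂ Ω (T m m f Ω) = 0 from Grp.perp (h.stress hA) m m hf,
    inner_self_eq_norm_sq_to_K, h.norm_vac] at this
  simpa using this

/-- the theory: all finite linear combinations of the generators -/
def tq : Theory E := hull h.th

/-- **all hypotheses** -/
theorem top (r : L.Rec h.tq) : ∃ (Q : Theory E) (T : Ix → Ix → Fld E) (A : (V → V) → E → E)
    (N : Set V → VonNeumannAlgebra (Completion E)), Stress0 Q T ∧ PCh Q T A ∧ TfGen Q ∧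
      FSL Q ∧ LNm Q A N ∧ L.UVac Q ∧ L.Rec Q ∧
      (∃ φ, Q.IsScalar φ 1 ∧ ∃ f, IsTest f ∧ φ f Q.vac ≠ 0) ∧
      ¬FiniteDimensional ℂ (Completion E) ∧ ∃ f, IsTest f ∧ tr T f Q.vac ≠ 0 := by
  obtain ⟨A, hA⟩ := h.rep
  obtain ⟨N, hN⟩ := Net.lnm hA h.scalar h.raw h.fil
  obtain ⟨v, n, p⟩ := h.perp hA
  have s := P352H.str (h.stress hA)
  exact ⟨h.tq, T, A, N, ⟨s.bose, s.symm, s.herm, fun m n L a f v => s.cov m n 1 L a f v one_pos,
    s.conserved, s.charge⟩, P352H.pch hA h.pT (h.pch hA), P352L.StA.tfg h.tf, P352H.fsl h.fsl,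
    P352L.StA.lnm hN, h.uvac, r, ⟨φ, ⟨sp_of h.pφ, h.scalar.2⟩, h.nzp⟩, nz_dim hA h.uvac n p, h.nz⟩

end Fr

end Vale.Agent.P352R
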