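import Vale.Agent.P352R.Df
import Vale.Agent.P352W.Cn.Inv
import Vale.Agent.P352W.Fk.Bas
import Mathlib.Topology.Algebra.Polynomial
import Mathlib.Topology.Algebra.MvPolynomial

/-!
# P352R: the row FIN (helper32)
-/

set_option linter.all false

open MeasureTheory Filter Topology
open scoped ENNReal

noncomputable section

namespace Vale.Agent.P352R

open Vale.Agent.P352.GF Vale.Agent.P352W Vale.Agent.P352W.Fk Vale.Agent.P352W.Cn

namespace Fn0

theorem lor1 : IsLor one := by
  refine ⟨fun m n => ?_, by simp [one, bas], ?_⟩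
  · simp only [mdot, one, bas]
    rw [Finset.sum_eq_single m (fun k _ h => by simp [h]) (by simp)]
    by_cases h : m = n
    · simp [h]
    · simp [h, Ne.symm h]
  · have : Matrix.of one = (1 : Matrix Ix Ix ℝ) := by
      ext m n; simp [one, bas, Matrix.one_apply, eq_comm]
    exact (congrArg Matrix.det this).trans Matrix.det_one

theorem sim1 (s : ℝ) : sim s one 0 = fun p => s • p := by
  funext p n; simp [sim, one, bas]

theorem pw_sc {s : ℝ} (hs : 0 < s) (n : ℕ) : Mec.pw n = ENNReal.ofReal (s ^ 2) ^ n •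
    (Mec.pw n).map fun x => s • x := by
  have m : Measurable fun p : V => s • p := (continuous_const_smul s).measurable
  refine Measure.pi_eq fun A hA => ?_
  rw [Measure.smul_apply, Measure.map_apply (continuous_const_smul s).measurable (.univ_pi hA)]
  have e : (fun x : Fin n → V => s • x) ⁻¹' Set.univ.pi A =
      Set.univ.pi fun i => (fun p => s • p) ⁻¹' A i := rfl
  have e2 : ∀ i, ENNReal.ofReal (s ^ 2) * Om ((fun p => s • p) ⁻¹' A i) = Om (A i) := fun i => by
    rw [← Measure.map_apply m (hA i), ← sim1, om_inv hs lor1,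
      Measure.smul_apply, smul_eq_mul, ← mul_assoc, ← ENNReal.ofReal_mul (by positivity),
      mul_inv_cancel₀ (by positivity), ENNReal.ofReal_one, one_mul]
  rw [e, Measure.pi_pi, smul_eq_mul, ← Finset.prod_congr rfl fun i _ => e2 i,
    Finset.prod_mul_distrib, Finset.prod_const, Finset.card_univ, Fintype.card_fin]

theorem sum_eq {n : ℕ} (x : Fin n → V) : (ms x).sum = ∑ i, x i := by
  simpa using sum_ms id x

theorem pv_cont {n : ℕ} (P : MvPolynomial (Fin n × Ix) ℂ) : Continuous (pv P) :=
  (MvPolynomial.continuous_eval P).comp (by fun_prop)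

theorem low {n : ℕ} (P : MvPolynomial (Fin n × Ix) ℂ) (x : Fin n → V) (h : pv P x ≠ 0) :
    ∃ c > 0, ∀ᶠ k : ℕ in atTop, c ≤ ‖pv P (((k : ℝ) + 1) • x)‖ := by
  let q : Polynomial ℂ :=
    MvPolynomial.aeval (fun a : Fin n × Ix => Polynomial.C (x a.1 a.2 : ℂ) * Polynomial.X) P
  have e : ∀ t : ℝ, q.eval (t : ℂ) = pv P (t • x) := fun t => by
    rw [← Polynomial.coe_aeval_eq_eval, ← AlgHom.comp_apply, MvPolynomial.comp_aeval, pv,
      ← MvPolynomial.coe_aeval_eq_eval]
    simp only [map_mul, Polynomial.aeval_C, Polynomial.aeval_X, Pi.smul_apply, smul_eq_mul,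
      Complex.ofReal_mul, mul_comm (t : ℂ)]
    rfl
  simp only [← e]
  rcases lt_or_ge 0 q.degree with d | d
  · refine ⟨1, one_pos, (q.tendsto_norm_atTop d ?_).eventually_ge_atTop 1⟩
    refine (tendsto_atTop_add_const_right _ 1 tendsto_natCast_atTop_atTop).congr fun k => ?_
    rw [Complex.norm_real, Real.norm_of_nonneg (by positivity)]
  · refine ⟨‖pv P x‖, norm_pos_iff.2 h, .of_forall fun k => ?_⟩
    have := e 1
    rw [one_smul] at this
    rw [← this, Polynomial.eq_C_of_degree_le_zero d, Polynomial.eval_C, Polynomial.eval_C]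

end Fn0

open Fn0

theorem fin_row : FIN := fun M n P hM i => by
  have mw : Measurable fun x : Fin n → V => rr (ms x).sum ^ M := by
    simp only [sum_eq]; exact (Continuous.measurable (by unfold rr; fun_prop))
  let f : ℕ → (Fin n → V) → ℝ≥0∞ := fun k x =>
    ENNReal.ofReal (‖pv P (((k : ℝ) + 1) • x)‖ ^ 2 / rr (ms x).sum ^ M)
  have mf : ∀ k, Measurable (f k) := fun k =>
    ((((pv_cont P).comp (continuous_const_smul _)).norm.pow 2).measurable.div mw).ennreal_ofReal
  set C := ∫⁻ x, ENNReal.ofReal (‖pv P x‖ ^ 2 / rr (ms x).sum ^ M) ∂Mec.pw n with hC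
  have c : C ≠ ∞ := i.lintegral_lt_top.ne
  have b : ∀ k : ℕ, ∫⁻ x, f k x ∂Mec.pw n ≤ ENNReal.ofReal (1 / ((k : ℝ) + 1)) * C := fun k => by
    have s1 : (1 : ℝ) ≤ k + 1 := le_add_of_nonneg_left k.cast_nonneg
    have s0 := one_pos.trans_le s1
    simp only [f]
    generalize (k : ℝ) + 1 = s at s1 s0
    rw [hC]
    conv_rhs => rw [pw_sc s0 n]
    have m0 : Measurable fun x => ENNReal.ofReal (‖pv P x‖ ^ 2 / rr (ms x).sum ^ M) :=
      (((pv_cont P).norm.pow 2).measurable.div mw).ennreal_ofReal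
    rw [lintegral_smul_measure, lintegral_map m0 (continuous_const_smul s).measurable,
      smul_eq_mul, ← mul_assoc, ← ENNReal.ofReal_pow (by positivity), ← ENNReal.ofReal_mul (by positivity),
      ← lintegral_const_mul' _ _ ENNReal.ofReal_ne_top]
    refine lintegral_mono fun x => ?_
    simp only
    rw [← ENNReal.ofReal_mul (by positivity)]
    refine ENNReal.ofReal_le_ofReal ?_
    have r := rr_pos (ms x).sum
    have r' := rr_pos (ms (s • x)).sum
    have l : rr (ms (s • x)).sum ≤ s * rr (ms x).sum := by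
      simp only [sum_eq, Pi.smul_apply, ← Finset.smul_sum, rr, norm_smul, Real.norm_of_nonneg s0.le]
      linarith
    have l2 : s ^ M ≤ 1 / s * (s ^ 2) ^ n := by
      rw [one_div, le_inv_mul_iff₀ s0, ← pow_succ', ← pow_mul]
      exact pow_le_pow_right₀ s1 hM
    calc _ = s ^ M * (‖pv P (s • x)‖ ^ 2 / (s * rr (ms x).sum) ^ M) := by rw [mul_pow]; field_simp
      _ ≤ _ := by gcongr
  have t : Tendsto (fun k => ∫⁻ x, f k x ∂Mec.pw n) atTop (𝓝 0) := by
    refine tendsto_of_tendsto_of_tendsto_of_le_of_le tendsto_const_nhds ?_ (fun _ => zero_le) b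
    simpa using ENNReal.Tendsto.mul_const
      (ENNReal.tendsto_ofReal (tendsto_one_div_add_atTop_nhds_zero_nat (𝕜 := ℝ))) (.inr c)
  have z := lintegral_liminf_le (μ := Mec.pw n) (u := atTop) mf
  rw [t.liminf_eq, nonpos_iff_eq_zero, lintegral_eq_zero_iff (Measurable.liminf mf)] at z
  refine z.mono fun x hx => by_contra fun h => ?_
  obtain ⟨c, c0, e⟩ := low P x h
  have r := rr_pos (ms x).sum
  have : ENNReal.ofReal (c ^ 2 / rr (ms x).sum ^ M) ≤ liminf (fun k => f k x) atTop :=
    le_liminf_of_le (h := e.mono fun k hk => ENNReal.ofReal_le_ofReal (by gcongr))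
  rw [show liminf (fun k => f k x) atTop = 0 from hx, nonpos_iff_eq_zero, ENNReal.ofReal_eq_zero] at this
  exact this.not_gt (by positivity)

end Vale.Agent.P352R
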