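import Vale.Agent.P352R.Gl
import Vale.Agent.P352R.Br
import Vale.Agent.P352W.Fk.U0
import Vale.Agent.P352W.Cn.Ft

/-!
# P352R: the hypotheses in the republished definitions, with the inner ones (helper22)
-/

set_option autoImplicit false
set_option linter.all false

open MeasureTheory Filter Topology

noncomputable section

namespace Vale.Agent.P352R

open P352 GF H246 H15 BW P352X P352W
open P352.ND (cur PCh)
open P352L.StA (hull sp_of sp_ind)
open UniformSpace (Completion)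

namespace Gl2

/-- multi-indices -/
def ix (k : ℕ) : Fin (4 ^ k) ≃ (Fin k → Ix) := finFunctionFinEquiv.symm

/-- tensors of rank `k` -/
def rk (k : ℕ) : Rp where
  n := 4 ^ k
  ρ L := Matrix.of fun b a => ((∏ i, L (ix k b i) (ix k a i) : ℝ) : ℂ)
  S m n := Matrix.of fun b a => ((∑ i, (∏ j ∈ Finset.univ.erase i, GF.one (ix k b j) (ix k a j)) *
    (GF.one (ix k b i) m * GF.one (ix k a i) n) : ℝ) : ℂ)
  id := by
    ext b a
    rw [Matrix.one_apply, Matrix.of_apply]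
    split_ifs with h
    · simp [h, GF.one, bas]
    · obtain ⟨i, hi⟩ := Function.ne_iff.1 ((ix k).injective.ne h)
      rw [Finset.prod_eq_zero (Finset.mem_univ i) (by simp [GF.one, bas, Ne.symm hi])]
      simp
  mul L L' _ _ := .inl (by
    ext b a
    rw [Matrix.mul_apply, ← (ix k).symm.sum_comp]
    simp only [Matrix.of_apply, Equiv.apply_symm_apply, sim, Pi.zero_apply, zero_add, one_mul]
    rw [Finset.prod_univ_sum, Fintype.piFinset_univ]
    push_cast
    exact Finset.sum_congr rfl fun _ _ => Finset.prod_mul_distrib)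
  der L w b a L0 _ d := by
    have := (HasDerivAt.fun_finset_prod (u := Finset.univ) fun i _ =>
      d (ix k b i) (ix k a i)).ofReal_comp
    rw [L0] at this
    have e : ∀ i j : Ix, ∑ m, ∑ n, w m n * (GF.one i m * GF.one j n) = w i j := fun i j => by
      simp [GF.one, bas]
    refine this.congr_deriv ?_
    simp only [Matrix.of_apply, ← Complex.ofReal_mul, ← Complex.ofReal_sum]
    refine congrArg _ ?_
    simp only [Finset.mul_sum]
    rw [Finset.sum_congr rfl fun m _ => Finset.sum_comm, Finset.sum_comm]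
    refine Finset.sum_congr rfl fun i _ => ?_
    rw [smul_eq_mul, ← e (ix k b i)]
    simp only [Finset.mul_sum, mul_left_comm (w _ _) (Finset.prod _ _)]

variable {E : Type*} [NormedAddCommGroup E] [InnerProductSpace ℂ E] {Q : Theory E}
  {A : (V → V) → E → E} {s : ℝ} {L : Ix → V}

theorem sim_inv (hs : 0 < s) (hL : IsLor L) (a x : V) :
    sim s L a (sim s⁻¹ (linv L) (Fk.U.mm s⁻¹ L (-a)) x) = x := by
  have e : sim s⁻¹ (linv L) (Fk.U.mm s⁻¹ L (-a)) x = Fk.U.mm s⁻¹ L (-a + x) := by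
    rw [Fk.U.mm_add]; funext n; simp [sim]
  have := Fk.U.mm_l (inv_pos.2 hs) hL (-a + x)
  rw [inv_inv] at this
  have e2 : ∀ y, sim s L a y = a + sim s L 0 y := fun y => by funext n; simp [sim]
  rw [e, e2, this, add_neg_cancel_left]

theorem U_inv (h : Rep Q A) (hs : 0 < s) (hL : IsLor L) (a : V) (z : E) :
    Q.U s L a (Q.U s⁻¹ (linv L) (Fk.U.mm s⁻¹ L (-a)) z) = z := by
  have e := sim_inv hs hL a 0
  rw [show sim s⁻¹ (linv L) (Fk.U.mm s⁻¹ L (-a)) 0 = Fk.U.mm s⁻¹ L (-a) from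
    funext fun n => by simp [sim]] at e
  rw [h.mul s L a s⁻¹ (linv L) _ z hs (inv_pos.2 hs) hL (isLor_linv hL), H755.linv_id hL,
    mul_inv_cancel₀ hs.ne', e]
  exact H755.Uone z

/-- the transformation law of one field -/
def Cv (Q : Theory E) (s : ℝ) (L : Ix → V) (a : V) (B : Fld E) : Prop :=
  ∃ C, (hull Q).fld C ∧ ∀ f v, IsTest f →
    Q.U s L a (B (fun x => f (sim s L a x)) v) = C f (Q.U s L a v)

theorem cv (h : Rep Q A) (hs : 0 < s) (hL : IsLor L) (a : V) {k : ℕ} {d : ℝ}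
    {Φ : (Fin k → Ix) → Fld E} (t : Ten Q.U d Φ) (p : ∀ ν, Q.fld (Φ ν)) (μ : Fin k → Ix) :
    Cv Q s L a (Φ μ) := by
  refine ⟨∑ ν, ((s⁻¹ ^ (4 - d) * ∏ j, linv L (ν j) (μ j) : ℝ) : ℂ) • Φ ν,
    Submodule.sum_mem _ fun ν _ => Submodule.smul_mem _ _ (sp_of (p ν)), fun f v hf => ?_⟩
  have := t μ s⁻¹ (linv L) (Fk.U.mm s⁻¹ L (-a)) _ (Q.U s L a v) (inv_pos.2 hs) (isLor_linv hL)
    (P352W.Ft.test_sim hs hL a hf)
  rw [show Q.U s⁻¹ (linv L) (Fk.U.mm s⁻¹ L (-a)) (Q.U s L a v) = v from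
    (ueI Q hs hL a).injective (U_inv h hs hL a _)] at this
  rw [this, ← ueI_apply hs hL, map_sum]
  simp only [map_smul, ueI_apply, U_inv h hs hL, sim_inv hs hL, Finset.sum_apply, Pi.smul_apply]

theorem sect (h : Rep Q A)
    (c : ∀ s L a B, 0 < s → IsLor L → Q.fld B → Cv Q s L a B) :
    Sect (hull Q) (hull Q) .id where
  vac := rfl
  U _ _ _ _ _ _ := rfl
  cov s L a hs hL := ⟨Function.Surjective.denseRange fun z => ⟨_, U_inv h hs hL a z⟩,
    fun B hB => by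
      obtain ⟨C, p, q⟩ : Cv Q s L a B := by
        refine sp_ind hB (fun B b => c s L a B hs hL b) ⟨0, zero_mem _, fun f v _ => ?_⟩
          fun B C x ⟨B', b, b'⟩ ⟨C', c, c'⟩ =>
            ⟨B' + x • C', add_mem b (Submodule.smul_mem _ _ c), fun f v hf => ?_⟩
        · exact map_zero (ueI Q hs hL a)
        · rw [← ueI_apply hs hL, map_add, map_smul, ueI_apply, ueI_apply, b' f v hf, c' f v hf]
          rfl
      exact ⟨1, fun _ => 1, fun _ => C, fun _ => p, fun f v hf => (q f v hf).trans (by simp [hull])⟩⟩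
  bose B C b c := ⟨B, C, b, c, fun _ _ _ => rfl, fun _ _ _ => rfl⟩

theorem gr (h : Rep Q A) (hb : ∀ B, Q.fld B → Q.bose B) (z : Q.fld 0) : Gr Q id where
  inv _ := rfl
  herm _ _ := rfl
  bose _ _ _ _ _ := rfl
  split B k := ⟨B, 0, hb B k, ⟨z, by simp⟩, by simp⟩
  anti B C f g v a b c d _ := by
    have z {B : Fld E} (a : Fer Q id B) {f} (c : IsTest f) (v) : B f v = 0 := by
      have : (2 : ℂ) • B f v = 0 := by rw [two_smul]; exact add_eq_zero_iff_eq_neg.2 (a.2 f v c)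
      simpa using this
    rw [z a c, z b d, neg_zero]
  GU _ _ _ _ _ _ := rfl
  mul s L a s' L' a' b c d e := .inl fun v => h.mul s L a s' L' a' v b c d e

end Gl2

variable {E : Type*} [NormedAddCommGroup E] [InnerProductSpace ℂ E]

variable {Ω : E} {φ : Fld E} {T : Ix → Ix → Fld E} {U : ℝ → (Ix → V) → V → E → E}
  {F : Fld E → Prop}

namespace Fr

variable (h : Fr Ω φ T U F)

open Gl2 in
theorem mf : MfAll h.th := fun B hB => by
  obtain ⟨k, d, Φ, μ, t, p, rfl⟩ := h.ten' B hB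
  refine ⟨1, fun _ => Φ μ, fun _ => ⟨rk k, fun a => Φ (ix k a), (ix k).symm μ,
    ⟨fun _ => p _, fun a L g u hL hg => ?_⟩, by simp⟩, fun _ _ _ => by simp⟩
  have := t (ix k a) 1 L 0 g u one_pos hL hg
  simp only [Real.one_rpow, one_mul] at this
  exact this.trans ((ix k).sum_comp _).symm

open P in
/-- **all hypotheses**, in the republished definitions -/
theorem topP (r : L.Rec h.tq) : ∃ (Q : Theory E) (T : Ix → Ix → Fld E) (A : (V → V) → E → E)
    (N : Set V → VonNeumannAlgebra (Completion E)), (P.Stress0 Q T ∧ P.PCh Q T A ∧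
      (P.TfGen Q ∨ MfA Q) ∧ P.FSL Q ∧ P.LNm Q A N ∧ P.UVac Q ∧ P.Rec Q) ∧ P.TfGen Q ∧ MfA Q ∧
      (P.Sect Q Q .id ∧ P.Gr Q id ∧ Gnr Q A) ∧
      (∃ φ, Q.IsScalar φ 1 ∧ ∃ f, IsTest f ∧ φ f Q.vac ≠ 0) ∧
      ¬FiniteDimensional ℂ (Completion E) ∧ ∃ f, IsTest f ∧ tr T f Q.vac ≠ 0 := by
  obtain ⟨A, hA⟩ := h.rep
  obtain ⟨N, hN⟩ := Net.lnm hA h.scalar h.raw h.fil
  obtain ⟨v, n, p⟩ := h.perp hA
  have s := P352H.str (h.stress hA)
  have t : BW.TfGen h.tq := P352L.StA.tfg h.tf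
  have l := P352L.StA.lnm hN
  refine ⟨h.tq, T, A, N, ⟨⟨s.bose, s.symm, s.herm, fun m n L a f v => s.cov m n 1 L a f v one_pos,
    s.conserved, s.charge⟩, P352H.pch hA h.pT (h.pch hA), .inl t, P352H.fsl h.fsl,
    Br.lnm.2 l, h.uvac, Br.frec.2 r⟩, t, Br.mfa.2 (P352H.mfa h.mf),
    ⟨Br.sect.2 (Gl2.sect hA fun s L a B hs hL hB => ?_),
      Br.gr.2 (Gl2.gr l.toRep (fun _ b => b) (zero_mem _)), hA.der⟩,
    ⟨φ, ⟨sp_of h.pφ, h.scalar.2⟩, h.nzp⟩, nz_dim hA h.uvac n p, h.nz⟩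
  obtain ⟨k, d, Φ, μ, t, p, rfl⟩ := h.ten' B hB
  exact Gl2.cv hA hs hL a t p μ

end Fr

end Vale.Agent.P352R
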