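import Vale.Agent.P352R.Pt.Many
import Vale.Agent.P352R.Df

/-!
# P352R: the row MANY (helper32)
-/

set_option linter.all false

open MeasureTheory Filter Topology

noncomputable section

namespace Vale.Agent.P352R

open Vale.Agent.P352.GF Vale.Agent.P352W Vale.Agent.P352W.Fk Vale.Agent.P352W.Cn
open Vale.Agent.P352.H246 (In)
open Vale.Agent.P352R.Pt Vale.Agent.P352R.Mn

theorem Mn.tp_pv {N : ℕ} {A : (V → ℂ) → Prop}
    (hA : ∀ c, A c → ∃ q, ∀ p, c p = vl q p / ((rr p : ℝ) : ℂ) ^ N) {n : ℕ} {Q : (Fin n → V) → ℂ}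
    (h : Tp A n Q) : ∃ P, ∀ x, pv P x = Q x * ((wt (ms x) ^ N : ℝ) : ℂ) := by
  induction h with
  | cst c => exact ⟨MvPolynomial.C c, fun x => by simp [pv, ms_zero, wt_zero]⟩
  | zero n => exact ⟨0, fun x => by simp [pv]⟩
  | add _ _ e e' =>
    obtain ⟨P, e⟩ := e
    obtain ⟨P', e'⟩ := e'
    exact ⟨P + P', fun x => by rw [add_mul, ← e, ← e', pv, map_add]; rfl⟩
  | @cons n a Q ha _ e =>
    obtain ⟨P, e⟩ := e
    obtain ⟨q, hq⟩ := hA a ha
    refine ⟨MvPolynomial.rename (fun m => (0, m)) q *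
      MvPolynomial.rename (fun a => (a.1.succ, a.2)) P, fun x => ?_⟩
    have k : ms x = x 0 ::ₘ ms (Fin.tail x) := ms_ins 0 x
    rw [pv, map_mul, MvPolynomial.eval_rename, MvPolynomial.eval_rename, k, wt_cons]
    change vl q (x 0) * pv P (Fin.tail x) = a (x 0) * Q (Fin.tail x) * _
    have := rr_ne (x 0) N
    rw [e, hq]
    push_cast
    rw [mul_pow]
    field_simp

theorem many_row : MANY := fun N n F F' i i' h => by
  have w : ∀ (u : Fin n → ℂ) (x : Fin n → V) (z : ℂ), (∏ i, u i * ((rr (x i) : ℝ) : ℂ) ^ N) *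
      (z / ((wt (ms x) ^ N : ℝ) : ℂ)) = (∏ i, u i) * z := fun u x z => by
    have := wt_ne (ms x) N
    rw [Finset.prod_mul_distrib, Finset.prod_pow, ← Complex.ofReal_prod, ← wt_ms, Complex.ofReal_pow]
    field_simp
  obtain ⟨Q, tq, eq⟩ := (many0 (μ := Om) (h0 := fun p => ((Real.exp (-rr p) : ℝ) : ℂ))
    ⟨(Complex.continuous_ofReal.comp (Real.continuous_exp.comp continuous_rr.neg)).measurable, 1,
      fun p => by
        rw [Complex.norm_real, Real.norm_of_nonneg (Real.exp_pos _).le]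
        exact Real.exp_le_one_iff.2 (neg_nonpos.2 (rr_pos p).le)⟩
    (fun p => Complex.ofReal_ne_zero.2 (Real.exp_pos _).ne') (pa N id) (pa N fun p => -p)
    (int_pa N continuous_id fun _ => rfl) (int_pa N continuous_neg rr_neg)
    (fun P z => ae_om.2 (.of_forall fun k => by
      change vl P.1 (Cn.cn k) / _ = 0
      rw [vl_neg (z.mono fun p hp => (div_eq_zero_iff.1 hp).resolve_right (rr_ne p N)), zero_div]))
    (u := fun (g : {g // In Sl g}) p => ft g.1 (-p) * ((rr p : ℝ) : ℂ) ^ N)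
    (v := fun g p => ft g.1 p * ((rr p : ℝ) : ℂ) ^ N)
    (fun g => bm_ft g.2.1 N continuous_neg rr_neg) (fun g => bm_ft g.2.1 N continuous_id fun _ => rfl)
    (fun G G' j j' e => by
      obtain ⟨P, d, p1, p2⟩ := one (gr_of j N) (gr_of j' N) fun g hg => by
        simpa only [mul_assoc, mul_comm (((rr _ : ℝ) : ℂ) ^ N)] using e ⟨g, hg⟩
      exact ⟨⟨P, (MvPolynomial.mem_restrictTotalDegree _ _ _).2 d⟩,
        p1.mono fun p hp => eq_div_of_mul_eq (rr_ne p N) hp,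
        p2.mono fun p hp => eq_div_of_mul_eq (rr_ne p N) hp⟩) n _ _
    ⟨i, i', fun g => by simpa only [w] using h _ fun j => (g j).2⟩).1
  obtain ⟨P, e⟩ := Mn.tp_pv (N := N) (fun c ⟨P, k⟩ => ⟨P.1, fun p => k ▸ rfl⟩) tq
  refine ⟨P, eq.mono fun x hx => ?_⟩
  rw [e, ← hx, div_mul_cancel₀ _ (by rw [Complex.ofReal_pow]; exact wt_ne _ N)]

end Vale.Agent.P352R
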