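import Vale.Agent.P352R.Df
import Vale.Agent.P352R.Ap.Ps
import Vale.Agent.P352R.W.Lin
import Vale.Agent.P352W.Cn.Ft

/-!
# P352R: the symbols of the Wick monomials (helper72)
-/

set_option autoImplicit false
set_option linter.all false

open MeasureTheory Filter Topology
open scoped ComplexConjugate Classical

noncomputable section

namespace Vale.Agent.P352R.S0

open Vale.Agent.P352.GF Vale.Agent.P352W Vale.Agent.P352W.Cn
open Vale.Agent.P352W.Fk hiding Wd D rep mk op Ω Ph Tm UU IsD D0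
open Vale.Agent.P352R.Ap (Mp Pn)
open Cov (ee tt gm_eq)

variable {n k : ℕ}

theorem sy_add : ∀ (n : ℕ) (G H : (Fin n → V) → ℂ), sy n (fun x => G x + H x) = sy n G + sy n H
  | 0, _, _ => add_smul _ _ _
  | n + 1, G, H => by simp only [sy, sy_add n, dv_add]

theorem sy_smul (c : ℂ) : ∀ (n : ℕ) (G : (Fin n → V) → ℂ), sy n (fun x => c * G x) = c • sy n G
  | 0, _ => mul_smul _ _ _
  | n + 1, G => by simp only [sy, sy_smul c n, dv_smul]

theorem sy_zero : sy n (fun _ => 0) = 0 := by simpa using sy_smul 0 n 0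

theorem sy_sum {ι : Type*} (t : Finset ι) (G : ι → (Fin n → V) → ℂ) :
    sy n (fun x => ∑ i ∈ t, G i x) = ∑ i ∈ t, sy n (G i) := by
  induction t using Finset.induction_on with
  | empty => simpa using sy_zero
  | insert i t hi ih => simp only [Finset.sum_insert hi, sy_add, ih]

theorem sy_card : ∀ (n : ℕ) (G : (Fin n → V) → ℂ) (σ : Multiset V), Multiset.card σ ≠ n →
    sy n G σ = 0
  | 0, G, σ, h => by
    rw [sy, Pi.smul_apply, vc, if_neg fun e => h (by rw [e]; rfl), smul_zero]
  | n + 1, G, σ, h => Multiset.sum_eq_zero fun z m => by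
    obtain ⟨p, u, rfl⟩ := Multiset.mem_map.1 m
    refine sy_card n _ _ fun e => h ?_
    rw [← Multiset.cons_erase u, Multiset.card_cons, e]

theorem sy_map {M : V → V} (hM : Function.Injective M) : ∀ (n : ℕ) (G : (Fin n → V) → ℂ)
    (σ : Multiset V), sy n G (σ.map M) = sy n (fun x => G fun j => M (x j)) σ
  | 0, G, σ => by
    simp only [sy, Pi.smul_apply, vc, Multiset.map_eq_zero]
    congr 2
    exact Subsingleton.elim _ _
  | n + 1, G, σ => by
    simp only [sy, dv, Multiset.map_map, Function.comp_def]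
    refine congrArg _ (Multiset.map_congr rfl fun p _ => ?_)
    rw [← Multiset.map_erase _ hM, sy_map hM n]
    congr 3
    funext x
    congr 1
    funext j
    exact Fin.cases rfl (fun _ => rfl) j

theorem sy_conj : ∀ (n : ℕ) (G : (Fin n → V) → ℂ) (σ : Multiset V),
    conj (sy n G σ) = sy n (fun x => conj (G x)) σ
  | 0, G, σ => by
    simp only [sy, Pi.smul_apply, vc, smul_eq_mul, map_mul]
    split_ifs <;> simp
  | n + 1, G, σ => by
    simp only [sy, dv, map_multiset_sum, Multiset.map_map, Function.comp_def, sy_conj n]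

/-- symmetric functions -/
theorem sy_ms : ∀ (n : ℕ) (F : Wf) (σ : Multiset V), Multiset.card σ = n →
    sy n (fun x => F (ms x)) σ = n.factorial * F σ
  | 0, F, σ, h => by
    rw [Multiset.card_eq_zero.1 h]
    simp [sy, vc, ms_zero]
  | n + 1, F, σ, h => by
    rw [sy, dv, Multiset.map_congr rfl (g := fun _ => n.factorial * F σ), Multiset.map_const',
      Multiset.sum_replicate, h, Nat.factorial_succ, nsmul_eq_mul, Nat.cast_mul, mul_assoc]
    intro p m
    simp only [ms_cons]
    rw [sy_ms n (fun τ => F (p ::ₘ τ)), Multiset.cons_erase m]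
    rw [Multiset.card_erase_of_mem m, h]; rfl

theorem sy_prod : ∀ (n : ℕ) (g : Fin n → V → ℂ), (∀ j, Mp (g j)) →
    Pn n (sy n fun x => ∏ j, g j (x j))
  | 0, _, _ => .smul _ .vc
  | n + 1, g, h => by
    simp only [sy, Fin.prod_univ_succ, Fin.cons_zero, Fin.cons_succ, sy_smul]
    exact .cr (h 0) (sy_prod n _ fun j => h _)

variable (a : Fin k → Fin n) (μ : Fin k → Ix)

theorem tm_pn : Pn n (sy n (tm a μ)) := by
  have : tm a μ = fun x => ∏ j, ∏ i with a i = j, Complex.I * (x j (μ i) : ℂ) := funext fun x => by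
    rw [tm, ← Finset.prod_fiberwise Finset.univ a]
    exact Finset.prod_congr rfl fun j _ => Finset.prod_congr rfl fun i m => by
      rw [(Finset.mem_filter.1 m).2]
  rw [this]
  exact sy_prod n (fun j p => ∏ i with a i = j, Complex.I * (p (μ i) : ℂ)) fun j =>
    Mp.prod _ fun i _ => (Mp.const _).mul (Mp.mom _)

theorem st_sy (G : (Fin n → V) → ℂ) : st (sy n G) = sy n fun x => conj (G fun j => -x j) :=
  funext fun σ => by rw [st, sy_map neg_injective, sy_conj]

theorem st_tm : st (sy n (tm a μ)) = sy n (tm a μ) := by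
  rw [st_sy]
  congr 1
  funext x
  simp [tm]

theorem gs_kS {f : Fn} (hf : IsTest f) : Gs (kS n (tm a μ) f) := Ap.gs_sym (tm_pn a μ) hf

theorem kS_card (G : (Fin n → V) → ℂ) (f : Fn) {σ : Multiset V} (h : Multiset.card σ ≠ n) :
    kS n G f σ = 0 := by rw [kS, sy_card n G σ h, zero_mul]

section

variable {s : ℝ} {L : Ix → V} (hs : 0 < s) (hL : IsLor L)
include hs hL

/-- **the tensor law** -/
theorem tm_tt (σ : Multiset V) : ∑ ν : Fin k → Ix, ((∏ i, L (ν i) (μ i) : ℝ) : ℂ) *
    sy n (tm a ν) (σ.map (tt s L)) = (s : ℂ) ^ k * sy n (tm a μ) σ := by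
  have h1 : ∀ (p : V) m, ∑ r, (L r m : ℂ) * (Complex.I * tt s L p r) = s * (Complex.I * p m) :=
    fun p m => by
    have h := congrFun (Cov.sim_tt hL p) m
    rw [tt, Cov.sim_smul, ← h]
    simp only [sim, Pi.zero_apply, zero_add, one_mul, Pi.smul_apply, smul_eq_mul]
    push_cast
    rw [Finset.mul_sum, Finset.mul_sum]
    exact Finset.sum_congr rfl fun _ _ => by ring
  have h2 : ∀ (c : ℂ) G, c * sy n G σ = sy n (fun x => c * G x) σ := fun c G =>
    (congrFun (sy_smul c n G) σ).symm
  simp only [sy_map (Cov.tt_inj hs hL), h2]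
  rw [← Finset.sum_apply, ← sy_sum]
  congr 2
  funext x
  simp only [tm, Complex.ofReal_prod, ← Finset.prod_mul_distrib]
  rw [← Fintype.piFinset_univ, ← Finset.prod_univ_sum (fun _ => Finset.univ)
    fun i r => (L r (μ i) : ℂ) * (Complex.I * tt s L (x (a i)) r)]
  simp only [h1]
  rw [Finset.prod_mul_distrib, Finset.prod_const, Finset.card_univ, Fintype.card_fin]

omit hs hL in
theorem sum_tt (σ : Multiset V) : (σ.map (tt s L)).sum = tt s L σ.sum := by
  induction σ using Multiset.induction_on with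
  | empty => funext m; simp [tt, sim]
  | cons p σ ih =>
    rw [Multiset.map_cons, Multiset.sum_cons, ih, Multiset.sum_cons]
    exact (Cov.sim_add _ _ _ _).symm

omit hs hL in
theorem prod_ee (b : V) (σ : Multiset V) : (σ.map (ee s b)).prod =
    (s : ℂ) ^ Multiset.card σ * Complex.exp (Complex.I * mdot σ.sum b) := by
  induction σ using Multiset.induction_on with
  | empty => simp [Ft.md_zero_l]
  | cons p σ ih =>
    rw [Multiset.map_cons, Multiset.prod_cons, ih, ee, Multiset.card_cons, Multiset.sum_cons,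
      Ft.md_add_l, Complex.ofReal_add, mul_add, Complex.exp_add]
    ring

/-- **covariance of the symbols** -/
theorem kS_gm (b : V) (f : Fn) : kS n (tm a μ) f = gm s L b
    (∑ ν : Fin k → Ix, ((s ^ ((4 : ℝ) - (n + k : ℕ)) * ∏ i, L (ν i) (μ i) : ℝ) : ℂ) •
      kS n (tm a ν) fun x => f (sim s L b x)) := funext fun σ => by
  rw [gm_eq, Finset.sum_apply]
  simp only [kS, Pi.smul_apply, smul_eq_mul, Complex.ofReal_mul, ← mul_assoc, ← Finset.sum_mul]
  simp only [mul_assoc, ← Finset.mul_sum, tm_tt a μ hs hL, sum_tt, prod_ee]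
  by_cases h : Multiset.card σ = n
  · have e : ((s ^ ((4 : ℝ) - (n + k : ℕ)) : ℝ) : ℂ) * s ^ (n + k) = s ^ 4 := by
      rw [Real.rpow_sub_natCast hs.ne', show (4 : ℝ) = (4 : ℕ) by norm_num, Real.rpow_natCast]
      push_cast
      exact div_mul_cancel₀ _ (pow_ne_zero _ (Complex.ofReal_ne_zero.2 hs.ne'))
    rw [h, Cov.ft_tt hs hL (a := b) f, ← e]
    ring
  · simp [sy_card n _ σ h]

/-- **covariance of the Wick monomials** -/
theorem cov_W (b : V) {f : Fn} (hf : IsTest f) {ψ : Wf} (hψ : Nice ψ) :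
    W n (kS n (tm a μ) f) (gm s L b ψ) = ∑ ν : Fin k → Ix,
      ((s ^ ((4 : ℝ) - (n + k : ℕ)) * ∏ i, L (ν i) (μ i) : ℝ) : ℂ) •
        gm s L b (W n (kS n (tm a ν) fun x => f (sim s L b x)) ψ) := by
  rw [kS_gm a μ hs hL b f, W_gm hs hL, W_sum n _ (fun ν _ =>
    (gs_kS a ν (Cov.test_sim hs hL b hf)).smul _) hψ, Cov.gm_sum]
  simp only [W_smul, Cov.gm_smul]

end

/-- polynomials are combinations of monomials -/
theorem pv_ex (q : MvPolynomial (Fin n × Ix) ℂ) : ∃ (N : ℕ) (c : Fin N → ℂ) (k : Fin N → ℕ)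
    (a : ∀ i, Fin (k i) → Fin n) (μ : ∀ i, Fin (k i) → Ix),
    pv q = fun x => ∑ i, c i * tm (a i) (μ i) x := by
  let S : Submodule ℂ ((Fin n → V) → ℂ) := Submodule.span ℂ
    (Set.range fun z : Σ k, (Fin k → Fin n) × (Fin k → Ix) => tm z.2.1 z.2.2)
  have h : pv q ∈ S := by
    induction q using MvPolynomial.induction_on with
    | C c =>
      have : pv (n := n) (MvPolynomial.C c) = c • tm Fin.elim0 Fin.elim0 :=
        funext fun x => by simp [tm, pv]
      rw [this]
      exact S.smul_mem c (Submodule.subset_span ⟨⟨0, _, _⟩, rfl⟩)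
    | add p q a b =>
      rw [show pv (p + q) = pv p + pv q from funext fun x => map_add _ _ _]
      exact add_mem a b
    | mul_X p z h =>
      rw [show pv (p * MvPolynomial.X z) = fun x => pv p x * (x z.1 z.2 : ℂ) from
        funext fun x => by simp [pv]]
      refine Submodule.span_induction (p := fun G _ => (fun x => G x * (x z.1 z.2 : ℂ)) ∈ S)
        ?_ ?_ ?_ ?_ h
      · rintro _ ⟨⟨k, a, μ⟩, rfl⟩
        have : (fun x => tm a μ x * (x z.1 z.2 : ℂ)) =
            -Complex.I • tm (Fin.cons z.1 a) (Fin.cons z.2 μ) := funext fun x => by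
          simp only [tm, Fin.prod_univ_succ, Fin.cons_zero, Fin.cons_succ, Pi.smul_apply,
            smul_eq_mul, ← mul_assoc, neg_mul, Complex.I_mul_I, neg_neg, one_mul]
          exact mul_comm _ _
        rw [this]
        exact S.smul_mem _ (Submodule.subset_span ⟨⟨k + 1, _, _⟩, rfl⟩)
      · simp only [Pi.zero_apply, zero_mul]; exact S.zero_mem
      · intro A B _ _ a b
        simp only [Pi.add_apply, add_mul]; exact add_mem a b
      · intro c A _ a
        simp only [Pi.smul_apply, smul_eq_mul, mul_assoc]; exact S.smul_mem c a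
  obtain ⟨N, c, g, e⟩ := Submodule.mem_span_set'.1 h
  choose z hz using fun i => (g i).2
  exact ⟨N, c, fun i => (z i).1, fun i => (z i).2.1, fun i => (z i).2.2, funext fun x => by
    rw [← e, Finset.sum_apply]; exact Finset.sum_congr rfl fun i _ => by rw [← hz i]; rfl⟩

theorem kS_pv (q : MvPolynomial (Fin n × Ix) ℂ) : ∃ (N : ℕ) (c : Fin N → ℂ) (k : Fin N → ℕ)
    (a : ∀ i, Fin (k i) → Fin n) (μ : ∀ i, Fin (k i) → Ix), ∀ f, IsTest f → ∀ ψ, Nice ψ →
      W n (kS n (pv q) f) ψ = ∑ i, c i • W n (kS n (tm (a i) (μ i)) f) ψ := by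
  obtain ⟨N, c, k, a, μ, e⟩ := pv_ex q
  refine ⟨N, c, k, a, μ, fun f hf ψ h => ?_⟩
  have : kS n (pv q) f = ∑ i, c i • kS n (tm (a i) (μ i)) f := funext fun σ => by
    simp only [kS, e, sy_sum, sy_smul, Finset.sum_apply, Pi.smul_apply, smul_eq_mul,
      Finset.sum_mul, mul_assoc]
  rw [this, W_sum n _ (fun i _ => (gs_kS _ _ hf).smul _) h]
  simp only [W_smul]

end Vale.Agent.P352R.S0
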