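import Vale.Agent.P352R.Sy
import Vale.Agent.P352R.W.Lin
import Vale.Agent.P352R.Wl.No

/-!
# P352R: normal ordered products are polynomials in the free field (helper71)
-/

set_option autoImplicit false
set_option linter.all false

open MeasureTheory Filter Topology
open scoped ComplexConjugate Classical Nat

noncomputable section

namespace Vale.Agent.P352R

open Vale.Agent.P352 Vale.Agent.P352.GF Vale.Agent.P352W.Cn Vale.Agent.P352W.Fk

theorem W_tn {n : ℕ} (g : Fin n → Fn) : W n (tn g) vc = (n ! : ℂ) • No.pr (List.ofFn g) :=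
  funext (lvl n (fun x => by
    rw [W_vc, if_pos (card_ms x), tn, sy_ms, Pi.smul_apply, No.pr_ms, smul_eq_mul, mul_assoc,
      Finset.mul_sum, prod_ms]
    refine congrArg _ (Finset.sum_congr rfl fun e _ => ?_)
    rw [Finset.prod_mul_distrib, Equiv.prod_comp e fun i => ci (x i)]
    rfl) fun σ h => by
    rw [W_vc, if_neg h, Pi.smul_apply, No.pr_ne _ _ (by rwa [List.length_ofFn]), smul_zero])

/-- **NO**, with the kit of the domain as hypotheses -/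
theorem no0 (add : ∀ ψ χ, Wd ψ → Wd χ → mk (ψ + χ) = mk ψ + mk χ)
    (smul : ∀ (c : ℂ) ψ, Wd ψ → mk (c • ψ) = c • mk ψ)
    (herm : ∀ f v w, IsTest f → inner ℂ (Ph f v) w = inner ℂ v (Ph (bar f) w))
    (phm : ∀ f ψ, IsTest f → Wd ψ → Ph f (mk ψ) = mk (ph (ft f) ψ)) : NO := by
  intro Q O n g hP hg
  obtain ⟨X, X', a, b⟩ := No.wick (Q := Q) (B := Ph) (R := fun v ψ => Wd ψ ∧ mk ψ = v)
    ⟨hP, herm, fun _ _ _ _ h h' => ⟨h.1.add h'.1, by rw [add _ _ h.1 h'.1, h.2, h'.2]⟩,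
      fun c _ _ h => ⟨h.1.smul c, by rw [smul c _ h.1, h.2]⟩,
      fun _ _ _ t h => ⟨h.1.ph t, by rw [← h.2, phm _ _ t h.1]⟩⟩ (O := O) (List.ofFn g)
    (List.forall_mem_ofFn_iff.2 hg)
  obtain ⟨⟨b1, b2⟩, c1, c2⟩ := b Ω ⟨.vc, rfl⟩
  have k : ∀ ψ, Wd ψ → ((n ! : ℂ) • mk ψ).1 = toL ((n ! : ℂ) • ψ) := fun ψ h => by
    rw [← smul _ _ h, mk, dif_pos (h.smul _)]
  refine ⟨_, _, .smul (n ! : ℂ) _ _ a, ?_, ?_⟩
  · rw [W_tn, ← b2, k _ b1]
  · rw [List.map_ofFn] at c1 c2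
    rw [st_tn, W_tn, ← c2, star_natCast, k _ c1]
    rfl

end Vale.Agent.P352R
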