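import Vale.Agent.P352R.Rec
import Vale.Agent.P352R.No
import Vale.Agent.P352R.Dm2

/-!
# P352R: the rows NO and REC on the domain (helper71)
-/

set_option autoImplicit false
set_option linter.all false

namespace Vale.Agent.P352R

open Vale.Agent.P352 Vale.Agent.P352.GF

theorem no_row (k : K2) : NO :=
  no0 (fun _ _ => k.mk_add) (fun c _ => k.mk_smul c) (fun _ v w h => k.herm_Ph h v w)
    fun _ _ => k.Ph_mk

theorem rec_of (k : K2) (mono : MONO) (core : CORE) (Q : Theory D) (hv : Q.vac = Ω) (hU : Q.U = UU)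
    (hP : Q.fld Ph) (hB : ∀ B ∈ Submodule.span ℂ {B | FP B}, Q.bose B) : P352X.L.Rec Q :=
  rec0 (fun v => ⟨k.nice (k.wr v), (k.rs v).2⟩)
    (fun a v => K2.mk_val (k.gm a one_pos isLor_one (k.wr v))) mono core (no_row k) Q hv hU hP hB

end Vale.Agent.P352R
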