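import Vale.Agent.P352R.Fr
import Vale.Agent.P352R.Gl2
import Vale.Agent.P352R.Rec2
import Vale.Agent.P352R.Rc.Mo
import Vale.Agent.P352R.Wl.Core
import Vale.Agent.P352R.Mu.Row
import Vale.Agent.P352R.Many
import Vale.Agent.P352R.Fin0

/-!
# P352R: field reconstruction holds for the theory of all Wick monomials (helper85)
-/

set_option autoImplicit false
set_option linter.all false

noncomputable section

namespace Vale.Agent.P352R

open P352 GF

theorem core : CORE := core_row mul_row many_row fin_row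

/-- **field reconstruction** -/
theorem rec_fr : P352X.L.Rec fr.tq :=
  rec_of k2 Rc.mono core fr.tq rfl rfl (P352L.StA.sp_of fr.pφ) fun _ h => h

open H246 H15 BW P352X P352W P UniformSpace in
/-- **the witness** -/
theorem witnessP : ∃ (E : Type) (_ : NormedAddCommGroup E) (_ : InnerProductSpace ℂ E)
    (Q : Theory E) (T : Ix → Ix → Fld E) (A : (V → V) → E → E)
    (N : Set V → VonNeumannAlgebra (Completion E)), (P.Stress0 Q T ∧ P.PCh Q T A ∧
      (P.TfGen Q ∨ MfA Q) ∧ P.FSL Q ∧ P.LNm Q A N ∧ P.UVac Q ∧ P.Rec Q) ∧ P.TfGen Q ∧ MfA Q ∧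
      (P.Sect Q Q .id ∧ P.Gr Q id ∧ Gnr Q A) ∧
      (∃ φ, Q.IsScalar φ 1 ∧ ∃ f, IsTest f ∧ φ f Q.vac ≠ 0) ∧
      ¬FiniteDimensional ℂ (Completion E) ∧ ∃ f, IsTest f ∧ tr T f Q.vac ≠ 0 :=
  ⟨D, _, _, fr.topP rec_fr⟩

end Vale.Agent.P352R
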