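import Vale.Agent.P352R.Dm2
import Vale.Agent.P352R.W.Cov
import Vale.Agent.P352R.W.Mo
import Vale.Agent.P352R.W.Wk2
import Vale.Agent.P352R.Ap.Mo

/-!
# P352R: the list `Fr` for the theory of all Wick monomials (helper85)
-/

set_option autoImplicit false
set_option linter.all false

noncomputable section

namespace Vale.Agent.P352R

open Vale.Agent.P352.GF Vale.Agent.P352W Vale.Agent.P352W.Cn
open Vale.Agent.P352W.Fk hiding Wd IsD D0 D rep mk op Ω Ph Tm UU

theorem k2 : K2 := ⟨Cv.wd_nice, fun _ hs hL h => wd_gm hs hL h⟩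

theorem Mo_mk {n j : ℕ} (π : Fin j → Fin n) (μ : Fin j → Ix) {f : Fn} {ψ : Wf} (hf : IsTest f)
    (a : Wd ψ) : Mo π μ f (P352R.mk ψ) = P352R.mk (W n (kS n (tm π μ) f) ψ) :=
  k2.op_mk (fun _ h => h.wk π μ hf) (fun _ h => h.wk π μ (Ft.test_bar hf))
    (fun ψ χ a b => by rw [ip_W n (Ap.gs_kS π μ hf) a b, Ap.st_kS π μ f]) a

/-- **the Fock space construction with all Wick monomials** -/
theorem fr : Fr Ω Ph Tm UU FP :=
  k2.fr (fun π μ f hf => ⟨Ap.gs_kS π μ hf, Ap.st_kS π μ f⟩) (fun π μ _ h => cont_W π μ h)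
    (fun π μ => Ap.ps_Mo π μ wick_row) fun π μ _ _ _ _ _ hs hL hf h => cov_W π μ hs hL hf h

end Vale.Agent.P352R
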