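import Vale.Agent.P352R.Pub

namespace Vale.Agent.P352R.G

open P352.GF P
open UniformSpace (Completion)

noncomputable section

/-- The d'Alembertian. -/
def box (f : Fn) : Fn := fun x => ∑ m, (eta m : ℂ) * pd m (pd m f) x

variable {D : Type*} [NormedAddCommGroup D] [InnerProductSpace ℂ D]

/-- The derivative at `0` of the translations in the direction `m`. -/
def Dv (Q : Theory D) (m : Ix) (v : D) : D := deriv (fun t : ℝ => Q.U 1 one (bas m t) v) 0

/-- Energy-momentum norms: the sum of the norms of all derivatives of order at most `k` of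
`a ↦ U(a) v` at `a = 0`. -/
def en (Q : Theory D) : ℕ → D → ℝ
  | 0, v => ‖v‖
  | k + 1, v => en Q k v + ∑ m, en Q k (Dv Q m v)

/-- **Polynomial energy bounds.** The smeared fields are bounded by a power of energy and momentum
that depends on the field only. -/
def EBd (Q : Theory D) : Prop := ∀ B, Q.fld B → ∃ k, ∀ f, In Set.univ f → ∃ C : ℝ, ∀ v,
  ‖B f v‖ ≤ C * en Q k v

/-- **Graded local nets of von Neumann algebras.** The vacuum is even, `A X` is the generator of the
similitudes with velocity field `X`, and `Γ` is the grading on the Hilbert space. The von Neumann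
algebras `N O`, `O` a region, are isotonic, covariant and graded, the fields smeared in `O` are
affiliated to `N O`, and the algebras of opposite wedges commute in the graded sense: the even part
of `X` and the odd part of `X` times `Γ` commute with the algebra of the opposite wedge. -/
structure LNg (Q : Theory D) (G : D → D) (A : (V → V) → D → D)
    (Γ : Completion D →L[ℂ] Completion D) (N : Set V → VonNeumannAlgebra (Completion D)) : Prop
    extends Gr Q G where
  vac : G Q.vac = Q.vac
  add : ∀ r r' (c : ℝ) X X' v, IsSim r X → IsSim r' X' →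
    A (fun z => X z + c • X' z) v = A X v + (c : ℂ) • A X' v
  der : Gnr Q A
  ext : ∀ v : D, Γ v = (G v : D)
  fld : ∀ O B f, Q.fld B → In O f → Aff (N O) (B f)
  mono : ∀ O O', O ⊆ O' → ∀ X ∈ N O, X ∈ N O'
  cov : ∀ s L y O, ∀ X ∈ N O, 0 < s → IsLor L →
    ∃ Y ∈ N (sim s L y '' O), ∀ z, Y (Ue Q s L y z) = Ue Q s L y (X z)
  gam : ∀ O, ∀ X ∈ N O, Γ * X * Γ ∈ N O
  loc : ∀ a b X, IsNull a → IsNull b → mdot a b = 1 → X ∈ N (Wdg b a 0) →
    X + Γ * X * Γ ∈ (N (Wdg a b 0)).commutant ∧ (X - Γ * X * Γ) * Γ ∈ (N (Wdg a b 0)).commutant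

/-- The theory `Q'` with the grading `G'` extends the theory `Q` in the same Hilbert space: its domain
`D'` is dense, the vacuum, the grading and the similitudes are those of `Q`, and every (Bose) field
`B` of `Q` gives a (Bose) field `e B` of `Q'`, which is a restriction of the adjoint of the formal
adjoint of `B`, and agrees with `B` on the intersection of the domains. -/
structure ExtG (Q : Theory D) (Γ : Completion D →L[ℂ] Completion D)
    {D' : Submodule ℂ (Completion D)} (Q' : Theory D') (G' : D' → D') (e : Fld D → Fld D') :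
    Prop extends Gr Q' G' where
  dense : Dense (D' : Set (Completion D))
  vac : (Q'.vac : Completion D) = om Q
  G : ∀ v, (G' v : Completion D) = Γ v
  U : ∀ s L a v, 0 < s → IsLor L → (Q'.U s L a v : Completion D) = Ue Q s L a v
  fld : ∀ B, Q.fld B → Q'.fld (e B)
  bos : ∀ B, Q.bose B → Q'.bose (e B)
  adj : ∀ B B' f (v : D') (w : D), Q.fld B → IsAdj B B' → IsTest f →
    inner ℂ (e B f v : Completion D) (w : Completion D) =
      inner ℂ (v : Completion D) (B' (bar f) w : Completion D)
  agree : ∀ B f (v : D') (w : D), Q.fld B → IsTest f → (v : Completion D) = w →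
    (e B f v : Completion D) = (B f w : D)

variable {H : Type*} [NormedAddCommGroup H] [InnerProductSpace ℂ H] [CompleteSpace H]

/-- The fields of `Q`, whose domain is embedded in the Hilbert space `H` by `i`, smeared in a wedge
`W`, are affiliated to `N W`: they commute weakly with the commutant of `N W`. -/
def AfW (N : Set V → VonNeumannAlgebra H) (Q : Theory D) (i : D → H) : Prop :=
  ∀ a b y B B' f, IsNull a → IsNull b → mdot a b = 1 → Q.fld B → IsAdj B B' → In (Wdg a b y) f →
    ∀ Y ∈ (N (Wdg a b y)).commutant, ∀ v w,
      inner ℂ (i (B' (bar f) w)) (Y (i v)) = inner ℂ (i w) (Y (i (B f v)))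

end

end Vale.Agent.P352R.G
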