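import Vale.Agent.P352R.Df
import Vale.Agent.P352R.Rc.J
import Vale.Agent.P352X.CL.Pub
import Vale.Agent.P352.BW.U
import Vale.Agent.P352W.Sp.Spec
import Vale.Agent.P352W.Cn.Ft

/-!
# P352R: field reconstruction from the classification on Fock space (helper71)
-/

set_option autoImplicit false
set_option linter.all false

open MeasureTheory Filter Topology
open scoped ComplexConjugate Classical
open UniformSpace (Completion)

noncomputable section

namespace Vale.Agent.P352R

open Vale.Agent.P352 Vale.Agent.P352.GF Vale.Agent.P352W.Cn Vale.Agent.P352W.Fk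
open Vale.Agent.P352.BW (Ue ue_coe ue_cont)
open Vale.Agent.P352X.L (Mult Rec)

/-- polynomial symbols are symbols of linear combinations of Wick monomials -/
def MONO : Prop := ∀ (n : ℕ) (P : MvPolynomial (Fin n × Ix) ℂ),
  ∃ Φ ∈ Submodule.span ℂ {B | FP B}, ∀ f χ, IsTest f → Nice χ →
    inner ℂ (toL χ) (Φ f Ω).1 = ip χ (W n (kS n (pv P) f) vc)

namespace Rc

section

variable {E : Type*} [NormedAddCommGroup E] [InnerProductSpace ℂ E] {Q : Theory E} {k : ℕ} {d : ℝ}
  {l : (Fin k → Ix) → Fn → Completion E}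

theorem l_zero (h : Mult Q k d l) (μ) : l μ (fun _ => 0) = 0 := by
  have := h.lin μ _ _ 1 P352W.Ft.test_zero P352W.Ft.test_zero
  simp only [mul_zero, add_zero, one_smul] at this
  exact left_eq_add.1 this

theorem l_add (h : Mult Q k d l) (μ) (f g : Sch) : l μ (ev (f + g)) = l μ (ev f) + l μ (ev g) := by
  have := h.lin μ _ _ 1 ⟨f, rfl⟩ ⟨g, rfl⟩
  simp only [one_mul, one_smul] at this
  exact this

theorem l_smul (h : Mult Q k d l) (μ) (c : ℂ) (g : Sch) : l μ (ev (c • g)) = c • l μ (ev g) := by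
  have := h.lin μ _ _ c P352W.Ft.test_zero ⟨g, rfl⟩
  simp only [zero_add, l_zero h] at this
  exact this

theorem cov1 (h : Mult Q k d l) (μ) (a : V) {f : Fn} (hf : IsTest f) :
    l μ f = Ue Q 1 one a (l μ fun x => f (x + a)) := by
  rw [h.cov μ 1 one a f one_pos isLor_one hf, Finset.sum_eq_single μ (fun ν _ n => by
    obtain ⟨i, hi⟩ := Function.ne_iff.1 n
    rw [Finset.prod_eq_zero (Finset.mem_univ i) (show one (ν i) (μ i) = 0 from if_neg hi.symm)]
    simp) (by simp)]
  simp [one, bas, P352W.Ft.sim_one]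

end

variable {Q : Theory D} {k : ℕ} {d : ℝ} {l : (Fin k → Ix) → Fn → Completion D}

/-- the distribution with values in Fock space -/
def La (h : Mult Q k d l) (μ : Fin k → Ix) : Sch →L[ℂ] Fo where
  toFun g := J D0 (l μ (ev g))
  map_add' f g := (congrArg _ (l_add h μ f g)).trans (map_add _ _ _)
  map_smul' c g := (congrArg _ (l_smul h μ c g)).trans (map_smul (J D0) c _)
  cont := (J D0).continuous.comp (h.cont μ)

theorem tot_mu (c : Cf) : tot c = (mu c).sum := by
  have := sum_ms (fun p : V => p) c.2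
  rw [Multiset.map_id'] at this
  exact this.symm

theorem ue_ae (rw : ∀ v : D, Nice (rep v) ∧ toL (rep v) = v.1)
    (uu : ∀ a (v : D), (UU 1 one a v).1 = toL (gm 1 one a (rep v))) (hU : Q.U = UU) (a : V)
    (w : Completion D) :
    J D0 (Ue Q 1 one a w) =ᵐ[Lam] fun c => P352W.Ch.ep (mu c).sum a * J D0 w c := by
  have m : Measurable fun c : Cf => P352W.Ch.ep (mu c).sum a := by
    simp only [← tot_mu]
    exact Complex.measurable_exp.comp (measurable_const.mul (Complex.measurable_ofReal.comp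
      (continuous_mdot.measurable.comp (meas_tot.prodMk measurable_const))))
  have b : ∀ c : Cf, ‖P352W.Ch.ep (mu c).sum a‖ ≤ 1 := fun c => (P352W.Ft.norm_ex _).le
  refine Completion.induction_on w (closed_mul m.aestronglyMeasurable b
    ((J D0).continuous.comp (ue_cont 1 one a)) (J D0).continuous) fun v => ?_
  have i := (rw v).1.memLp
  have e : ∀ c, gm 1 one a (rep v) (mu c) = P352W.Ch.ep (mu c).sum a * rep v (mu c) := fun c => by
    rw [gm_tr, tot_mu]
    rfl
  have i' : MemLp (fun c => gm 1 one a (rep v) (mu c)) 2 Lam := by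
    simp only [e]
    exact i.of_le (m.aestronglyMeasurable.mul i.1) (.of_forall fun c => by
      rw [norm_mul]
      exact mul_le_of_le_one_left (norm_nonneg _) (b c))
  rw [ue_coe one_pos isLor_one, J_coe, J_coe, hU, uu, ← (rw v).2]
  filter_upwards [toL_ae i, toL_ae i'] with c h1 h2
  rw [h1, h2, e]

end Rc

open Rc in
/-- **REC**, with the kit of the domain as hypotheses -/
theorem rec0 (rw : ∀ v : D, Nice (rep v) ∧ toL (rep v) = v.1)
    (uu : ∀ a (v : D), (UU 1 one a v).1 = toL (gm 1 one a (rep v))) (mono : MONO) (core : CORE)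
    (no : NO) (Q : Theory D) (hv : Q.vac = Ω) (hU : Q.U = UU) (hP : Q.fld Ph)
    (hB : ∀ B ∈ Submodule.span ℂ {B | FP B}, Q.bose B) : Rec Q := by
  intro k d l h wl
  refine (Classical.skolem (p := fun μ (Φ : Fld D) => Q.bose Φ ∧ ∀ f, IsTest f →
    ((Φ f Q.vac : D) : Completion D) = l μ f)).1 fun μ => ?_
  obtain ⟨M, P, hc⟩ := core (La h μ) (fun a g => by
    have := ue_ae rw uu hU a (l μ (ev g))
    rwa [show ev g = fun x => ev (P352X.ST.tsl a g) (x + a) from funext fun x =>
      congrArg g (add_sub_cancel_right x a).symm, ← cov1 h μ a ⟨_, rfl⟩,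
      show (fun x => ev (P352X.ST.tsl a g) (x + a)) = ev g from funext fun x =>
      congrArg g (add_sub_cancel_right x a)] at this) fun f f' n g hf e hg => by
    obtain ⟨X, X', a, b, c⟩ := no Q _ n g hP hg
    have := wl μ (ev f) X X' ⟨⟨f, rfl⟩, hf, Set.subset_univ _⟩ a
    rwa [← J_inner, ← J_inner, J_coe, J_coe, hv, b, c, ← e] at this
  choose Φ h1 h2 using fun n => mono n (P n)
  refine ⟨∑ n ∈ Finset.range M, Φ n, hB _ (Submodule.sum_mem _ fun n _ => h1 n), ?_⟩
  rintro _ ⟨g, rfl⟩
  refine ext_c D0 fun v => ?_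
  rw [J_coe, ← (rw v).2, hv, Finset.sum_apply, Finset.sum_apply, Submodule.coe_sum, inner_sum,
    Finset.sum_congr rfl fun n _ => h2 n _ _ ⟨g, rfl⟩ (rw v).1]
  exact (hc g _ (rw v).1).symm

end Vale.Agent.P352R
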