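import Vale.Agent.P352R.Df
import Vale.Agent.P352R.W.Bd
import Vale.Agent.P352W.Fk.Cont

/-!
# P352R: symmetrisation, symbols of the local fields (helper49)
-/

set_option autoImplicit false
set_option linter.all false

open MeasureTheory Filter Topology
open scoped ComplexConjugate Classical Nat

namespace Vale.Agent.P352R

open Vale.Agent.P352 Vale.Agent.P352.GF Vale.Agent.P352W.Cn Vale.Agent.P352W.Fk

noncomputable section

variable {n k : ℕ} {G H : (Fin n → V) → ℂ} {f : Fn}

theorem ms_perm (x : Fin n → V) (π : Equiv.Perm (Fin n)) : ms (x ∘ π) = ms x :=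
  Equiv.sum_comp π fun i => ({x i} : Multiset V)

theorem sy_ms : ∀ {n : ℕ} (G : (Fin n → V) → ℂ) (x : Fin n → V),
    sy n G (ms x) = ∑ π : Equiv.Perm (Fin n), G (x ∘ π)
  | 0, G, x => by
    simp only [sy, ms_zero, Pi.smul_apply, vc, if_true, smul_eq_mul, mul_one,
      Finset.univ_unique, Finset.sum_singleton]
    exact congrArg G (Subsingleton.elim _ _)
  | n + 1, G, x => by
    rw [sy, P352W.Fk.dv_ms, ← Equiv.Perm.decomposeFin.symm.sum_comp, Fintype.sum_prod_type]
    refine Finset.sum_congr rfl fun i _ => ?_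
    have e : (ms fun j => x (i.succAbove j)) = ms fun j : Fin n => x (Equiv.swap 0 i j.succ) := by
      have a := P352W.Fk.ms_ins 0 (x ∘ Equiv.swap 0 i)
      rw [ms_perm, P352W.Fk.ms_ins i x] at a
      simpa using a
    rw [e, sy_ms]
    refine Finset.sum_congr rfl fun π _ => congrArg G (funext fun j => ?_)
    refine Fin.cases ?_ (fun j => ?_) j <;> simp

theorem sy_card : ∀ {n : ℕ} (G : (Fin n → V) → ℂ) {σ : Multiset V}, Multiset.card σ ≠ n →
    sy n G σ = 0
  | 0, G, σ, h => by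
    have : σ ≠ 0 := fun e => h (by simp [e])
    simp [sy, vc, this]
  | n + 1, G, σ, h => Multiset.sum_eq_zero fun z hz => by
    obtain ⟨p, hp, rfl⟩ := Multiset.mem_map.1 hz
    refine sy_card _ fun e => h ?_
    rw [← e, Multiset.card_erase_add_one hp]

/-- two statements about wave functions of `n` particles -/
theorem lvl {P : Multiset V → Prop} (n : ℕ) (a : ∀ x : Fin n → V, P (ms x))
    (b : ∀ σ, Multiset.card σ ≠ n → P σ) (σ : Multiset V) : P σ := by
  by_cases h : Multiset.card σ = n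
  · obtain ⟨m, x, rfl⟩ := exists_ms σ
    rw [P352W.Fk.card_ms] at h
    subst h
    exact a x
  · exact b σ h

theorem sy_add (G H : (Fin n → V) → ℂ) : sy n (fun x => G x + H x) = sy n G + sy n H :=
  funext (lvl n (fun x => by simp only [Pi.add_apply, sy_ms, Finset.sum_add_distrib])
    fun σ h => by simp only [Pi.add_apply, sy_card _ h, add_zero])

theorem sy_mul (c : ℂ) (G : (Fin n → V) → ℂ) : sy n (fun x => c * G x) = c • sy n G :=
  funext (lvl n (fun x => by simp only [Pi.smul_apply, sy_ms, Finset.mul_sum, smul_eq_mul])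
    fun σ h => by simp only [Pi.smul_apply, sy_card _ h, smul_zero])

theorem sy_sum {ι : Type*} (s : Finset ι) (G : ι → (Fin n → V) → ℂ) :
    sy n (fun x => ∑ i ∈ s, G i x) = ∑ i ∈ s, sy n (G i) :=
  funext (lvl n (fun x => by simp only [Finset.sum_apply, sy_ms]; exact Finset.sum_comm)
    fun σ h => by simp only [Finset.sum_apply, sy_card _ h, Finset.sum_const_zero])

theorem sy_map (g : V → V) (G : (Fin n → V) → ℂ) (σ : Multiset V) :
    sy n G (σ.map g) = sy n (fun x => G fun i => g (x i)) σ :=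
  lvl (P := fun σ => sy n G (σ.map g) = sy n (fun x => G fun i => g (x i)) σ) n
    (fun x => by simp only [P352W.Fk.ms_map, sy_ms]; rfl)
    (fun σ h => by rw [sy_card _ h, sy_card _ (by rwa [Multiset.card_map])]) σ

theorem sy_conj (G : (Fin n → V) → ℂ) (σ : Multiset V) :
    conj (sy n G σ) = sy n (fun x => conj (G x)) σ :=
  lvl (P := fun σ => conj (sy n G σ) = sy n (fun x => conj (G x)) σ) n
    (fun x => by simp only [sy_ms, map_sum]) (fun σ h => by simp only [sy_card _ h, map_zero]) σ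

/-- symmetric factors -/
theorem sy_fac (G : (Fin n → V) → ℂ) (u : Wf) (σ : Multiset V) :
    sy n G σ * u σ = sy n (fun x => G x * u (ms x)) σ :=
  lvl (P := fun σ => sy n G σ * u σ = sy n (fun x => G x * u (ms x)) σ) n
    (fun x => by simp only [sy_ms, ms_perm, Finset.sum_mul])
    (fun σ h => by simp only [sy_card _ h, zero_mul]) σ

theorem st_sy (G : (Fin n → V) → ℂ) : st (sy n G) = sy n fun x => conj (G fun i => -x i) :=
  funext fun σ => by rw [st, sy_map, sy_conj]

theorem meas_perm (π : Equiv.Perm (Fin n)) : Measurable fun x : Fin n → V => x ∘ π :=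
  measurable_pi_iff.2 fun i => measurable_pi_apply (π i)

theorem ms_sy {α : Type} [MeasurableSpace α] {G : α → (Fin n → V) → ℂ}
    (h : Measurable fun z : α × (Fin n → V) => G z.1 z.2) : Ms fun a => sy n (G a) := fun m => by
  by_cases e : m = n
  · subst e
    simp only [sy_ms]
    exact Finset.measurable_sum _ fun π _ =>
      h.comp (measurable_fst.prodMk ((meas_perm π).comp measurable_snd))
  · have : ∀ (a : α) (x : Fin m → V), sy n (G a) (ms x) = 0 := fun a x =>
      sy_card _ (by rwa [P352W.Fk.card_ms])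
    simp only [this]
    exact measurable_const

theorem sy_le {b : Multiset V → ℝ} (b0 : ∀ σ, 0 ≤ b σ) (h : ∀ x, ‖G x‖ ≤ b (ms x))
    (σ : Multiset V) : ‖sy n G σ‖ ≤ n ! * b σ :=
  lvl (P := fun σ => ‖sy n G σ‖ ≤ n ! * b σ) n
    (fun x => by
      rw [sy_ms]
      refine (norm_sum_le _ _).trans ((Finset.sum_le_card_nsmul _ _ (b (ms x)) fun π _ =>
        (h _).trans_eq (by rw [ms_perm])).trans_eq ?_)
      rw [Finset.card_univ, Fintype.card_perm, Fintype.card_fin, nsmul_eq_mul])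
    (fun σ e => by
      rw [sy_card _ e, norm_zero]
      exact mul_nonneg (Nat.cast_nonneg _) (b0 σ)) σ

theorem sum_ms' (x : Fin n → V) : (ms x).sum = ∑ i, x i := by
  simpa using P352W.Fk.sum_ms id x

theorem meas_sum : Measurable fun x : Fin n → V => (ms x).sum := by
  simp only [sum_ms']
  exact Finset.measurable_sum _ fun i _ => measurable_pi_apply i

/-- functions of polynomial growth -/
def Pl (G : (Fin n → V) → ℂ) : Prop :=
  Measurable G ∧ ∃ (a : ℕ) (C : ℝ), 0 ≤ C ∧ ∀ x, ‖G x‖ ≤ C * wt (ms x) ^ a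

theorem Pl.const (c : ℂ) : Pl fun _ : Fin n → V => c :=
  ⟨measurable_const, 0, ‖c‖, norm_nonneg _, fun x => by simp⟩

theorem Pl.mul (a : Pl G) (b : Pl H) : Pl fun x => G x * H x := by
  obtain ⟨m, i, C, C0, h⟩ := a
  obtain ⟨m', j, C', C0', h'⟩ := b
  refine ⟨m.mul m', i + j, C * C', mul_nonneg C0 C0', fun x => ?_⟩
  have := wt_pos (ms x)
  rw [norm_mul, pow_add, mul_mul_mul_comm]
  exact mul_le_mul (h x) (h' x) (norm_nonneg _) (by positivity)

theorem Pl.add (a : Pl G) (b : Pl H) : Pl fun x => G x + H x := by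
  obtain ⟨m, i, C, C0, h⟩ := a
  obtain ⟨m', j, C', C0', h'⟩ := b
  refine ⟨m.add m', i + j, C + C', add_nonneg C0 C0', fun x => ?_⟩
  have w := wt_one (ms x)
  rw [add_mul]
  exact (norm_add_le _ _).trans (add_le_add
    ((h x).trans (mul_le_mul_of_nonneg_left (pow_le_pow_right₀ w (by omega)) C0))
    ((h' x).trans (mul_le_mul_of_nonneg_left (pow_le_pow_right₀ w (by omega)) C0')))

theorem rr_le_wt (x : Fin n → V) (i : Fin n) : rr (x i) ≤ wt (ms x) := by
  rw [wt_ms, ← Finset.mul_prod_erase _ _ (Finset.mem_univ i)]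
  exact le_mul_of_one_le_right (rr_pos _).le (Finset.prod_induction _ (1 ≤ ·)
    (fun _ _ => one_le_mul_of_one_le_of_one_le) le_rfl fun j _ => rr_one _)

theorem Pl.co (i : Fin n) (m : Ix) : Pl fun x : Fin n → V => (x i m : ℂ) :=
  ⟨Complex.measurable_ofReal.comp ((measurable_pi_apply m).comp (measurable_pi_apply i)), 1, 1,
    zero_le_one, fun x => by
      rw [Complex.norm_real, one_mul, pow_one]
      refine (norm_le_pi_norm (x i) m).trans (le_trans ?_ (rr_le_wt x i))
      unfold rr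
      linarith⟩

theorem Pl.prod {ι : Type*} (s : Finset ι) {G : ι → (Fin n → V) → ℂ} (h : ∀ i, Pl (G i)) :
    Pl fun x => ∏ i ∈ s, G i x := by
  induction s using Finset.induction_on with
  | empty => simpa using Pl.const 1
  | insert i s hi ih => simpa only [Finset.prod_insert hi] using (h i).mul ih

theorem pl_tm (π : Fin k → Fin n) (μ : Fin k → Ix) : Pl (tm π μ) :=
  Pl.prod _ fun j => (Pl.const _).mul (Pl.co _ _)

theorem pv_C (c : ℂ) (x : Fin n → V) : pv (MvPolynomial.C c) x = c := by simp [pv]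

theorem pv_add (P Q : MvPolynomial (Fin n × Ix) ℂ) (x : Fin n → V) :
    pv (P + Q) x = pv P x + pv Q x := by simp [pv]

theorem pv_X (P : MvPolynomial (Fin n × Ix) ℂ) (i : Fin n × Ix) (x : Fin n → V) :
    pv (P * MvPolynomial.X i) x = pv P x * x i.1 i.2 := by simp [pv]

theorem pl_pv (P : MvPolynomial (Fin n × Ix) ℂ) : Pl (pv P) := by
  induction P using MvPolynomial.induction_on with
  | C c => rw [funext (pv_C c)]; exact Pl.const c
  | add P Q a b => rw [funext (pv_add P Q)]; exact a.add b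
  | mul_X P i a => rw [funext (pv_X P i)]; exact a.mul (Pl.co i.1 i.2)

theorem sb_kS (h : Pl G) : ∃ a, ∀ N, ∃ p : Sch → ℝ, Continuous p ∧ p 0 = 0 ∧
    ∀ g, Sb a N (p g) (kS n G (ev g)) := by
  obtain ⟨-, a, C, C0, h⟩ := h
  refine ⟨a, fun N => ?_⟩
  obtain ⟨p, h1, h2, h3⟩ := Ct.hb_ft N
  refine ⟨fun g => n ! * C * p g, continuous_const.mul h1, by simp [h2], fun g σ => ?_⟩
  have w := wt_pos σ
  have r := rr_pos σ.sum
  have := sy_le (b := fun σ => C * wt σ ^ a) (fun σ => by have := wt_pos σ; positivity) h σ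
  rw [kS, norm_mul, mul_assoc]
  exact (mul_le_mul this (h3 g σ.sum) (by positivity) (by positivity)).trans_eq (by ring)

theorem gs_kS (h : Pl G) (hf : IsTest f) : Gs (kS n G f) := by
  refine ⟨(ms_sy (h.1.comp measurable_snd)).mul fun m =>
    (P352W.Ft.meas_ft hf).comp (meas_sum.comp measurable_snd), ?_⟩
  obtain ⟨g, rfl⟩ := hf
  obtain ⟨a, b⟩ := sb_kS h
  exact ⟨a, fun N => (b N).elim fun p h => ⟨_, h.2.2 g⟩⟩

theorem st_kS (G : (Fin n → V) → ℂ) (f : Fn) :
    st (kS n G f) = kS n (fun x => conj (G fun i => -x i)) (bar f) := funext fun σ => by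
  rw [st, kS, kS, map_mul, sy_map, sy_conj, Multiset.sum_map_neg', P352W.Ft.ft_bar]

theorem conj_tm (π : Fin k → Fin n) (μ : Fin k → Ix) :
    (fun x : Fin n → V => conj (tm π μ fun i => -x i)) = tm π μ := funext fun x => by
  simp [tm]

theorem st_tm (π : Fin k → Fin n) (μ : Fin k → Ix) (f : Fn) :
    st (kS n (tm π μ) f) = kS n (tm π μ) (bar f) := by rw [st_kS, conj_tm]

theorem st_tn (g : Fin n → Fn) : st (tn g) = tn fun i => bar (g i) := by
  rw [tn, tn, st_sy]
  simp only [map_prod, P352W.Ft.ft_bar]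

theorem kS_add (G H : (Fin n → V) → ℂ) (f : Fn) :
    kS n (fun x => G x + H x) f = kS n G f + kS n H f := funext fun σ => by
  simp only [kS, sy_add, Pi.add_apply, add_mul]

theorem kS_mul (c : ℂ) (G : (Fin n → V) → ℂ) (f : Fn) :
    kS n (fun x => c * G x) f = c • kS n G f := funext fun σ => by
  simp only [kS, sy_mul, Pi.smul_apply, smul_eq_mul, mul_assoc]

theorem kS_lin (G : (Fin n → V) → ℂ) {g : Fn} (hf : IsTest f) (hg : IsTest g) (c : ℂ) :
    kS n G (fun x => f x + c * g x) = kS n G f + c • kS n G g := funext fun σ => by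
  simp only [kS, P352W.Ft.ft_lin hf hg c, Pi.add_apply, Pi.smul_apply, smul_eq_mul]
  ring

theorem rr_sum (σ : Multiset V) : rr σ.sum ≤ 2 * wt σ := by
  induction σ using Multiset.induction_on with
  | empty => simp [rr, wt_zero]
  | cons a σ ih =>
    rw [Multiset.sum_cons, wt_cons, mul_left_comm]
    exact (rr_add _ _).trans (mul_le_mul_of_nonneg_left ih (rr_pos a).le)

/-- products of rapidly decreasing functions -/
theorem prod_le {h : Fin n → V → ℂ} (a : ∀ i, Hs (h i)) (N : ℕ) :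
    ∃ C : ℝ, 0 ≤ C ∧ ∀ x : Fin n → V, ‖∏ i, h i (x i)‖ * wt (ms x) ^ N ≤ C := by
  choose c hc using fun i => (a i).2 N
  have p (i : Fin n) (q : V) : 0 ≤ ‖h i q‖ * rr q ^ N :=
    mul_nonneg (norm_nonneg _) (pow_pos (rr_pos q) N).le
  refine ⟨∏ i, c i, Finset.prod_nonneg fun i _ => (p i 0).trans (hc i 0), fun x => ?_⟩
  rw [norm_prod, wt_ms, ← Finset.prod_pow, ← Finset.prod_mul_distrib]
  exact Finset.prod_le_prod (fun i _ => p i _) fun i _ => hc i _

theorem meas_prod {h : Fin n → V → ℂ} (a : ∀ i, Hs (h i)) :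
    Measurable fun x : Fin n → V => ∏ i, h i (x i) :=
  Finset.measurable_prod _ fun i _ => (a i).1.comp (measurable_pi_apply i)

theorem nice_sy (m : Measurable G) (h : ∀ N, ∃ C : ℝ, 0 ≤ C ∧ ∀ x, ‖G x‖ * wt (ms x) ^ N ≤ C) :
    Nice (sy n G) := by
  refine ⟨ms_sy (m.comp measurable_snd), fun N => ?_⟩
  obtain ⟨C, C0, h⟩ := h N
  refine ⟨n ! * C, fun σ => ?_⟩
  have w := wt_pos σ
  have := sy_le (G := G) (b := fun σ => C / wt σ ^ N) (fun σ => by have := wt_pos σ; positivity)
    (fun x => (le_div_iff₀ (pow_pos (wt_pos _) N)).2 (h x)) σ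
  rwa [← mul_div_assoc, le_div_iff₀ (by positivity)] at this

theorem gs_nice {κ : Wf} (h : Nice κ) : Gs κ := by
  refine ⟨h.1, 0, fun N => ?_⟩
  obtain ⟨C, hC⟩ := h.2 N
  refine ⟨2 ^ N * C, fun σ => ?_⟩
  rw [pow_zero, mul_one]
  calc _ ≤ ‖κ σ‖ * (2 * wt σ) ^ N :=
        mul_le_mul_of_nonneg_left (pow_le_pow_left₀ (rr_pos _).le (rr_sum σ) N) (norm_nonneg _)
    _ = 2 ^ N * (‖κ σ‖ * wt σ ^ N) := by ring
    _ ≤ _ := mul_le_mul_of_nonneg_left (hC σ) (by positivity)

theorem nice_tn {g : Fin n → Fn} (h : ∀ i, IsTest (g i)) : Nice (tn g) :=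
  nice_sy (meas_prod fun i => Ct.hs_ft (h i)) (prod_le fun i => Ct.hs_ft (h i))

theorem gs_tn {g : Fin n → Fn} (h : ∀ i, IsTest (g i)) : Gs (tn g) := gs_nice (nice_tn h)

theorem mp_perm (π : Equiv.Perm (Fin n)) :
    MeasurePreserving (fun x : Fin n → V => x ∘ π) (Mec.pw n) (Mec.pw n) := by
  have := (measurePreserving_piCongrLeft (fun _ : Fin n => Om) π).symm
  exact this

theorem emb_perm (π : Equiv.Perm (Fin n)) : MeasurableEmbedding fun x : Fin n → V => x ∘ π :=
  (MeasurableEquiv.piCongrLeft (fun _ : Fin n => V) π).symm.measurableEmbedding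

theorem int_perm (π : Equiv.Perm (Fin n)) (Φ : (Fin n → V) → ℂ) :
    ∫ x, Φ (x ∘ π) ∂Mec.pw n = ∫ x, Φ x ∂Mec.pw n := (mp_perm π).integral_comp (emb_perm π) Φ

theorem intg_perm {E : Type*} [NormedAddCommGroup E] (π : Equiv.Perm (Fin n))
    {Φ : (Fin n → V) → E} (h : Integrable Φ (Mec.pw n)) :
    Integrable (fun x => Φ (x ∘ π)) (Mec.pw n) :=
  ((mp_perm π).integrable_comp_emb (emb_perm π)).2 h

end

end Vale.Agent.P352R
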